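import Crest.Agent.R234.Cy7_870
import Crest.Agent.R234.AS_456
import Crest.Agent.R234.Vf8_884
import Crest.Agent.R234.Loc1_290
import Crest.Agent.R234.Ex1_46

/-!
# Row 234, VF-CORE (helper809): the class of the core and its conclusion (frozen, version 3)

`Cls Q δ D π κ U Dd`: `Dd` is an integral varifold in `U ⊇ {|π z| ≤ 5, |κ z| ≤ 2}`, almost
stationary (`AS π U δ`), its part in the closed solid cylinder `{|π z| ≤ 4, |κ z| ≤ 1}` has heights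
`|κ z|² ≤ D` and tilt energy `≤ D`, its mass is close to that of `Q` sheets, and it is the image of
an exactly stationary varifold under a diffeomorphism close to the identity (`ex`, 46; this gives
the density bounds in true balls at all scales).
The core says: the anomaly `b (bump) = ∫ bump (1 - tl/2) dV - Q ∫ bump dx` is
`≤ C0 (δ (e + √(e Y)) + δ² Y) + Λ^{-Cs} D`, `Λ = log (1/D)`.
-/

set_option autoImplicit false

open MeasureTheory Filter Topology Set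
open Crest.GeometryTopology.Submanifold Crest.Agent.R234.Vf_884 Crest.Agent.R234.Ar_870
open Crest.Agent.R234.Cy_870

noncomputable section

namespace Crest.Agent.R234.Core_809

variable {m n k : ℕ}

/-- the part of `V = VD Dd` in the closed solid cylinder of the class -/
def part (π : Euc k →L[ℝ] Euc m) (κ : Euc k →L[ℝ] Euc n) (Dd : VarifoldData m k) :
    Measure (Euc k × L k) :=
  (VD Dd).restrict (Cy_870.cyl π κ 0 4 1 ×ˢ univ)

/-- **the class of the core** -/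
structure Cls (Q : ℕ) (δ D : ℝ) (π : Euc k →L[ℝ] Euc m) (κ : Euc k →L[ℝ] Euc n)
    (U : Set (Euc k)) (Dd : VarifoldData m k) : Prop where
  sp : Split π κ
  isOpen : IsOpen U
  int : IsIntegralVarifoldIn U Dd
  as : AS_456.AS π U δ (VD Dd)
  dom' : Cy_870.cyl π κ 0 5 2 ⊆ U
  hgt : ∀ᵐ p ∂(VD Dd), p.1 ∈ Cy_870.cyl π κ 0 4 1 → ‖κ p.1‖ ^ 2 ≤ D
  en : ∫ p, tl π p.2 ∂(part π κ Dd) ≤ D
  mass : |(part π κ Dd).real univ - Q * (ome m * 4 ^ m)| ≤ 1 / 4 * (ome m * 4 ^ m)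
  big : (VD Dd).real (Cy_870.cyl π κ 0 5 2 ×ˢ univ) ≤ (Q + 1) * (ome m * 5 ^ m)
  ex : ∃ T T' : Euc k → Euc k, Ex_46.Dif T T' ∧
    (∀ z, ‖fderiv ℝ T z - ContinuousLinearMap.id ℝ (Euc k)‖ ≤ 1 / 16) ∧
    IsStationaryIn (T' ⁻¹' U) (Ex_46.trans T Dd)

theorem Cls.dom {Q : ℕ} {δ D : ℝ} {π : Euc k →L[ℝ] Euc m} {κ : Euc k →L[ℝ] Euc n}
    {U : Set (Euc k)} {Dd : VarifoldData m k} (h : Cls Q δ D π κ U Dd) :
    Cy_870.cyl π κ 0 4 1 ⊆ U := by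
  intro z hz
  apply h.dom'
  simp only [Cy_870.cyl] at hz ⊢
  exact ⟨hz.1.trans (by norm_num), hz.2.trans (by norm_num)⟩

/-- the anomaly tested with 290's bump `(1 - |v - x|²/ρ²)₊` -/
def anom (Q : ℕ) (π : Euc k →L[ℝ] Euc m) (κ : Euc k →L[ℝ] Euc n) (Dd : VarifoldData m k)
    (ρ : ℝ) (x : Euc m) : ℝ :=
  ∫ p, Loc1_290.bump ρ x (π p.1) * (1 - tl π p.2 / 2) ∂(part π κ Dd)
    - Q * ∫ v : Euc m, Loc1_290.bump ρ x v

/-- the tilt energy of the part -/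
def en (π : Euc k →L[ℝ] Euc m) (κ : Euc k →L[ℝ] Euc n) (Dd : VarifoldData m k) : ℝ :=
  ∫ p, tl π p.2 ∂(part π κ Dd)

/-- the quadratic height of the part -/
def Yh (π : Euc k →L[ℝ] Euc m) (κ : Euc k →L[ℝ] Euc n) (Dd : VarifoldData m k) : ℝ :=
  ∫ p, ‖κ p.1‖ ^ 2 ∂(part π κ Dd)

/-- **NODE CORE** (frozen, version 3; 98 #6717, 504 #6768, 762 #7133): the anomaly bound -/
def CoreProp : Prop :=
  ∀ (m n Q : ℕ), 3 ≤ m → 1 ≤ n → 1 ≤ Q → ∃ C1 C0 : ℝ, 0 < C1 ∧ 0 < C0 ∧ ∀ Cs : ℝ,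
    ∃ D0 : ℝ, 0 < D0 ∧ D0 < 1 ∧
    ∀ (k : ℕ) (π : Euc k →L[ℝ] Euc m) (κ : Euc k →L[ℝ] Euc n) (U : Set (Euc k))
      (Dd : VarifoldData m k) (δ D : ℝ), 0 < D → D ≤ D0 → 0 ≤ δ →
      δ ≤ (Real.log (1 / D)) ^ (-C1) → Cls Q δ D π κ U Dd →
      anom Q π κ Dd 1 0 ≤ C0 * (δ * (en π κ Dd + √(en π κ Dd * Yh π κ Dd)) + δ ^ 2 * Yh π κ Dd)
        + (Real.log (1 / D)) ^ (-Cs) * D

end Crest.Agent.R234.Core_809
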