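import Crest.Agent.R234.Crs1_173

/-!
# Row 234, N0-COARSE, part 8 (helper173): the Caccioppoli inequality in the class `CylAS`, sharp form

`∫ η(π z)² tl ≤ 16 ∫ (|Dη|² + η²) |κ z|²` for `δ ≤ 1/16`, `h₀ ≤ 1` (asked by helper46).
-/

set_option autoImplicit false

open MeasureTheory Set Function Filter Topology Metric
open Crest.GeometryTopology.Submanifold
open Crest.Agent.R234.Vf_884 Crest.Agent.R234.Ar_870 Crest.Agent.R234.Cy_870
open Crest.Agent.R234.AS_456 (AS errA err hp vp)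
open Crest.Agent.R234.Asl_214
open scoped ENNReal NNReal InnerProductSpace

noncomputable section

namespace Crest.Agent.R234.Crs_173

variable {m n k : ℕ} {π : Euc k →L[ℝ] Euc m} {κ : Euc k →L[ℝ] Euc n} {δ : ℝ}
  {x₀ x : Euc m} {R h₀ : ℝ} {W : Measure (Euc k × L k)}

/-- **Caccioppoli inequality in `CylAS`**, general cut-off, height under the integral -/
theorem cacc_kap (h : CylAS W π κ x₀ R h₀ δ) (h0 : 0 ≤ δ) (hδ : δ ≤ 1 / 16)
    (hh1 : h₀ ≤ 1) {η : Euc m → ℝ} (hη : ContDiff ℝ 1 η)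
    (hz : ∀ v, R ≤ ‖v - x₀‖ → η v = 0) :
    ∫ p, η (π p.1) ^ 2 * tl π p.2 ∂W ≤
      16 * ∫ p, (‖fderiv ℝ η (π p.1)‖ ^ 2 + η (π p.1) ^ 2) * ‖κ p.1‖ ^ 2 ∂W := by
  have hηd : Continuous (fderiv ℝ η) := hη.continuous_fderiv one_ne_zero
  have hηc := hη.continuous
  set f : Euc m → ℝ := fun v => η v ^ 2 with hf
  set df : Euc m → Euc m →L[ℝ] ℝ := fun v => (2 * η v) • fderiv ℝ η v with hdf
  have hfd : ∀ y, HasFDerivAt f (df y) y := by
    intro y
    have h1 := ((hη.differentiable one_ne_zero) y).hasFDerivAt.pow 2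
    refine h1.congr_fderiv ?_
    ext v
    simp [hdf]
  have hdfc : Continuous df := (continuous_const.mul hηc).smul hηd
  set ψ : Euc n → Euc n := fun v => v with hψ
  have hψd : ∀ v, HasFDerivAt ψ (ContinuousLinearMap.id ℝ (Euc n)) v := fun v => hasFDerivAt_id v
  have key := h.fv_ver h0 hfd hdfc hψd continuous_const (fun v hv => by
    simp only [hf]; rw [hz v hv]; norm_num)
  -- the trace
  have htr : ∀ᵐ p ∂W, tr ((fderiv ℝ (fun p => f (π p) • ContinuousLinearMap.adjoint κ (ψ (κ p))) p.1)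
      ∘L p.2) = η (π p.1) ^ 2 * tl π p.2 +
        df (π p.1) (π (p.2 (ContinuousLinearMap.adjoint κ (κ p.1)))) := by
    filter_upwards [h.conc] with p hp
    rw [tr_field κ π p.1 p.2 (hfd _).differentiableAt (hψd _).differentiableAt, (hfd _).fderiv,
      (hψd _).fderiv, ContinuousLinearMap.id_comp, tr_Svv h.sp hp]
  have c1 := CylAS.continuous_tl (k := k) π
  have c2 : Continuous fun p : Euc k × L k => ‖κ p.1‖ := (κ.continuous.comp continuous_fst).norm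
  have c3 : Continuous fun p : Euc k × L k => η (π p.1) :=
    hηc.comp (π.continuous.comp continuous_fst)
  have c4 : Continuous fun p : Euc k × L k => df (π p.1) :=
    hdfc.comp (π.continuous.comp continuous_fst)
  have c5 : Continuous fun p : Euc k × L k => ‖fderiv ℝ η (π p.1)‖ :=
    (hηd.comp (π.continuous.comp continuous_fst)).norm
  have c6 : Continuous fun p : Euc k × L k =>
      df (π p.1) (π (p.2 (ContinuousLinearMap.adjoint κ (κ p.1)))) :=
    c4.clm_apply (π.continuous.comp (continuous_snd.clm_apply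
      ((ContinuousLinearMap.adjoint κ).continuous.comp (κ.continuous.comp continuous_fst))))
  have i1 : Integrable (fun p : Euc k × L k => η (π p.1) ^ 2 * tl π p.2) W :=
    h.integrable_continuous ((c3.pow 2).mul c1)
  have i2 := h.integrable_continuous c6
  have i3 : Integrable (fun p : Euc k × L k =>
      (‖fderiv ℝ η (π p.1)‖ ^ 2 + η (π p.1) ^ 2) * ‖κ p.1‖ ^ 2) W :=
    h.integrable_continuous (((c5.pow 2).add (c3.pow 2)).mul (c2.pow 2))
  have eFV : FV W (fun p => f (π p) • ContinuousLinearMap.adjoint κ (ψ (κ p))) =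
      (∫ p, η (π p.1) ^ 2 * tl π p.2 ∂W) +
        ∫ p, df (π p.1) (π (p.2 (ContinuousLinearMap.adjoint κ (κ p.1)))) ∂W := by
    unfold FV
    rw [integral_congr_ae htr]
    exact integral_add i1 i2
  rw [eFV] at key
  set E : Euc k × L k → ℝ := fun p => (δ * (√(tl π p.2) + ‖κ p.1‖) *
          (‖df (π p.1)‖ * ‖ψ (κ p.1)‖ + |f (π p.1)| * ‖ψ (κ p.1)‖) +
        δ * (tl π p.2 + ‖κ p.1‖ * √(tl π p.2)) * (|f (π p.1)| * ‖ContinuousLinearMap.id ℝ (Euc n)‖) +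
        √δ * tl π p.2 * (|f (π p.1)| * ‖ψ (κ p.1)‖)) with hE
  have cE : Continuous E := by
    have d1 : Continuous fun p : Euc k × L k => ‖df (π p.1)‖ := c4.norm
    have d2 : Continuous fun p : Euc k × L k => |f (π p.1)| := (c3.pow 2).abs
    have d3 : Continuous fun p : Euc k × L k => ‖ψ (κ p.1)‖ := c2
    exact (((continuous_const.mul (c1.sqrt.add c2)).mul ((d1.mul d3).add (d2.mul d3))).add
      ((continuous_const.mul (c1.add (c2.mul c1.sqrt))).mul (d2.mul continuous_const))).add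
      ((continuous_const.mul c1).mul (d2.mul d3))
  have i4 := h.integrable_continuous cE
  have i5 : Integrable (fun p : Euc k × L k =>
      |df (π p.1) (π (p.2 (ContinuousLinearMap.adjoint κ (κ p.1))))|) W := i2.abs
  have h2 : ∫ p, (E p + |df (π p.1) (π (p.2 (ContinuousLinearMap.adjoint κ (κ p.1))))|) ∂W ≤
      ∫ p, (11 / 16 * (η (π p.1) ^ 2 * tl π p.2) +
        5 * ((‖fderiv ℝ η (π p.1)‖ ^ 2 + η (π p.1) ^ 2) * ‖κ p.1‖ ^ 2)) ∂W := by
    refine integral_mono_ae (i4.add i5) ((i1.const_mul _).add (i3.const_mul _)) ?_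
    filter_upwards [h.conc, h.hgt] with p hp hy
    have ht := tl_nonneg h.sp.hh (isPr_of_G hp)
    set t := √(tl π p.2) with htd
    have ht2 : tl π p.2 = t ^ 2 := (Real.sq_sqrt ht).symm
    have ha : |f (π p.1)| = |η (π p.1)| ^ 2 := by
      simp only [hf]; rw [sq_abs, abs_of_nonneg (sq_nonneg _)]
    have hb : ‖df (π p.1)‖ = 2 * |η (π p.1)| * ‖fderiv ℝ η (π p.1)‖ := by
      simp only [hdf]
      rw [norm_smul, Real.norm_eq_abs, abs_mul, abs_of_nonneg (by norm_num : (0 : ℝ) ≤ 2)]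
    have hmix : |df (π p.1) (π (p.2 (ContinuousLinearMap.adjoint κ (κ p.1))))| ≤
        2 * |η (π p.1)| * ‖fderiv ℝ η (π p.1)‖ * (t * ‖κ p.1‖) := by
      rw [← Real.norm_eq_abs, ← hb]
      refine (ContinuousLinearMap.le_opNorm _ _).trans ?_
      gcongr
      exact norm_mixed_le h.sp hp _
    have hsq : √δ ≤ 1 / 4 := by
      rw [Real.sqrt_le_left (by norm_num)]
      linarith
    have hid : ‖ContinuousLinearMap.id ℝ (Euc n)‖ ≤ 1 := ContinuousLinearMap.norm_id_le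
    have hr := real_cacc (a := |η (π p.1)|) (b := ‖fderiv ℝ η (π p.1)‖) (t := t) (y := ‖κ p.1‖)
      (h := ‖κ p.1‖) (d := δ) (q := √δ) (abs_nonneg _) (norm_nonneg _) (Real.sqrt_nonneg _)
      (norm_nonneg _) le_rfl (hy.trans hh1) h0 hδ (Real.sqrt_nonneg _) hsq
    have hEp : E p ≤ δ * (t + ‖κ p.1‖) * ((2 * |η (π p.1)| * ‖fderiv ℝ η (π p.1)‖) * ‖κ p.1‖ +
        |η (π p.1)| ^ 2 * ‖κ p.1‖) + δ * (t ^ 2 + ‖κ p.1‖ * t) * (|η (π p.1)| ^ 2 * 1) +
        √δ * t ^ 2 * (|η (π p.1)| ^ 2 * ‖κ p.1‖) := by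
      have hEp' : E p = δ * (t + ‖κ p.1‖) * ((2 * |η (π p.1)| * ‖fderiv ℝ η (π p.1)‖) * ‖κ p.1‖ +
        |η (π p.1)| ^ 2 * ‖κ p.1‖) + δ * (t ^ 2 + ‖κ p.1‖ * t) *
          (|η (π p.1)| ^ 2 * ‖ContinuousLinearMap.id ℝ (Euc n)‖) +
        √δ * t ^ 2 * (|η (π p.1)| ^ 2 * ‖κ p.1‖) := by
        change (δ * (√(tl π p.2) + ‖κ p.1‖) *
          (‖df (π p.1)‖ * ‖κ p.1‖ + |f (π p.1)| * ‖κ p.1‖) +
          δ * (tl π p.2 + ‖κ p.1‖ * √(tl π p.2)) *
            (|f (π p.1)| * ‖ContinuousLinearMap.id ℝ (Euc n)‖) +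
          √δ * tl π p.2 * (|f (π p.1)| * ‖κ p.1‖)) = _
        rw [ha, hb, ← htd, ht2]
      rw [hEp']
      gcongr
    change E p + _ ≤ 11 / 16 * (η (π p.1) ^ 2 * tl π p.2) +
        5 * ((‖fderiv ℝ η (π p.1)‖ ^ 2 + η (π p.1) ^ 2) * ‖κ p.1‖ ^ 2)
    rw [ht2, ← sq_abs (η (π p.1))]
    linarith
  have h3 : ∫ p, (E p + |df (π p.1) (π (p.2 (ContinuousLinearMap.adjoint κ (κ p.1))))|) ∂W =
      (∫ p, E p ∂W) + ∫ p, |df (π p.1) (π (p.2 (ContinuousLinearMap.adjoint κ (κ p.1))))| ∂W :=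
    integral_add i4 i5
  have h4 : ∫ p, (11 / 16 * (η (π p.1) ^ 2 * tl π p.2) +
        5 * ((‖fderiv ℝ η (π p.1)‖ ^ 2 + η (π p.1) ^ 2) * ‖κ p.1‖ ^ 2)) ∂W =
      11 / 16 * (∫ p, η (π p.1) ^ 2 * tl π p.2 ∂W) +
        5 * ∫ p, (‖fderiv ℝ η (π p.1)‖ ^ 2 + η (π p.1) ^ 2) * ‖κ p.1‖ ^ 2 ∂W := by
    rw [integral_add (i1.const_mul _) (i3.const_mul _), integral_const_mul, integral_const_mul]
  have h5 : |∫ p, df (π p.1) (π (p.2 (ContinuousLinearMap.adjoint κ (κ p.1)))) ∂W| ≤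
      ∫ p, |df (π p.1) (π (p.2 (ContinuousLinearMap.adjoint κ (κ p.1))))| ∂W :=
    abs_integral_le_integral_abs
  rw [h3, h4] at h2
  have h6 : 0 ≤ ∫ p, (‖fderiv ℝ η (π p.1)‖ ^ 2 + η (π p.1) ^ 2) * ‖κ p.1‖ ^ 2 ∂W :=
    integral_nonneg fun p => by positivity
  have h7 := (abs_le.1 key).2
  have h8 := (abs_le.1 h5).1
  linarith

end Crest.Agent.R234.Crs_173
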