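import Crest.Agent.R234.Well8_761

/-!
# Row 234, N9-AV, part 0 (helper870): 761's THEOREM RUN with the integrated drift as hypothesis

`run2`, `hrun2` = helper761's `run` (Well6) and `hrun` (Well8) where the pointwise drift bound
`DriftAt` at the contact centre is replaced by the integrated bound which is used in the proof
(in the class AS the pointwise bound needs an additional term).
-/

set_option autoImplicit false
set_option linter.unusedSectionVars false

open Set Filter Topology MeasureTheory Metric Module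
open scoped ContDiff InnerProductSpace ENNReal

noncomputable section

namespace Crest.Agent.R234.Rn_870

open Crest.Agent.R234.Well_761

section run

variable {H : Type*} [PseudoMetricSpace H] [MeasurableSpace H] [OpensMeasurableSpace H]
variable {W : Type*} [NormedAddCommGroup W] [InnerProductSpace ℝ W] [MeasurableSpace W]
  [BorelSpace W]
variable {m : ℕ} {κ : ℝ → ℝ} {Kκ cκ : ℝ} {mu en : Measure (H × W)}
  {R : H → ℝ → ℝ} {er : H → ℝ → ℝ → ℝ} {K : ℝ} {x₀ : H} {ρ₀ : ℝ}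

/-- **THEOREM RUN**, with the integrated drift as hypothesis. -/
theorem run2 (hfl : Flow m κ mu en R er K x₀ ρ₀) (hκ : Ker κ Kκ cκ)
    {erw : H → ℝ → ℝ → ℝ} {θ₁ θw : ℝ} (hwf : WFlow m κ mu en erw K θ₁ x₀ ρ₀)
    {T : Set (H × W)} {Cμ c0 : ℝ} (hg : Geo m mu T c0 x₀ ρ₀)
    {n : ℕ} (hn1 : 1 ≤ n) (hn : 2 ^ m * Cμ / c0 ≤ n)
    {x : H} {lmin lmax : ℝ} {N : ℝ → (W → ℝ) → ℝ} {C₅ : ℝ}
    (hN : Centre m κ mu x lmin lmax N C₅)
    (τ r lam : ℕ → ℝ) (xs : ℕ → H) {θ : ℝ}
    (hr0 : ∀ i ≤ n, 0 < r i) (hr : ∀ i < n, 2 * r i ≤ r (i + 1))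
    (hdist : ∀ i ≤ n, dist x (xs i) ≤ Real.exp (τ i) / 16)
    (hlmin : ∀ i ≤ n, lmin ≤ τ i - Real.log 4) (hlmax : ∀ i ≤ n, τ i ≤ lmax)
    (hgood : ∀ i ≤ n, ∀ q, r i ≤ q →
      Good m mu en er Cμ x₀ ρ₀ (xs i) (Real.log (r i / 16)) (τ i + Real.log 4) (lam i) θ q)
    (hθw : 0 ≤ θw)
    (herw : ∀ i < n, ∀ l ∈ Icc (Real.log (r i / 16)) (τ i + Real.log 4),
      erw (xs i) l (r (i + 1) / 2) ≤ θw * (r (i + 1) / 2) ^ 2)
    (hθ₁ : ∀ i ≤ n, θ₁ * (τ i + Real.log 4 - Real.log (r i / 16)) ≤ 1)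
    (hrs : ∀ i ≤ n, r i ≤ 4 * Real.exp (τ i))
    (hlam : ∀ i ≤ n, 0 ≤ lam i) (hθ : 0 ≤ θ)
    (h1 : ∀ i ≤ n, 8 * K * lam i * Real.exp (2 * τ i) ≤ b1 m cκ c0 / (16 * C₅ ^ 2) * r i ^ 2)
    (h2 : ∀ i ≤ n, (K * lam i + θ) * (τ i + Real.log 4 - Real.log (r i / 16)) ≤
      b1 m cκ c0 / (16 * C₅ ^ 2))
    (hne : ∀ i ≤ n, (Ht T (xs i) (r i / 16)).Nonempty)
    (_hτ : ∀ i < n, τ i ≤ τ (i + 1))
    (hdr : ∀ i < n, ∀ p : W, N (τ (i + 1) + Real.log 4) (bump p (r (i + 1))) -
      N (τ i - Real.log 4) (bump p (r (i + 1))) ≤ b1 m cκ c0 / (4 * C₅) * r (i + 1) ^ 2) :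
    ∃ i < n, ∃ C : Finset W, (C : Set W) ⊆ Ht T (xs i) (r i / 16) ∧ C.Nonempty ∧ C.card ≤ n ∧
      Well_761.Sep C (r (i + 1) / 2) ∧
      (∀ l ∈ Icc (τ i - Real.log 4) (τ i), N l (wells C (r (i + 1) / 2)) ≤
        C₅ * (3 * ((Kκ * Cμ / 2 + b1 m cκ c0 / 16) * r i ^ 2 +
          (K * lam i + θw) * (τ i + Real.log 4 - Real.log (r i / 16)) *
            (r (i + 1) / 2) ^ 2))) := by
  have hb1 : 0 < b1 m cκ c0 := by
    unfold b1
    have := hκ.cpos
    have := hg.cpos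
    positivity
  have hC₅ : 0 < C₅ := lt_of_lt_of_le one_pos hN.C1
  have hlog4 : 0 < Real.log 4 := Real.log_pos (by norm_num)
  have hexp4 : Real.exp (Real.log 4) = 4 := Real.exp_log (by norm_num)
  have hmono : ∀ i < n, r i ≤ r (i + 1) := fun i hi => by
    have := hr i hi
    have := hr0 i hi.le
    linarith
  -- one-sided closeness
  have hclose : ∀ i < n, ∀ p' ∈ Ht T (xs (i + 1)) (r (i + 1) / 16),
      ∃ p ∈ Ht T (xs i) (r i / 16), dist p p' ≤ r (i + 1) / 4 := by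
    intro i hi p' hp'
    set q := r (i + 1) with hqdef
    have hq : 0 < q := hr0 (i + 1) hi
    have hi1 : i + 1 ≤ n := hi
    -- mass at the next good centre
    have g1 := hgood (i + 1) hi1 q le_rfl
    have hD0 : 0 < r (i + 1) / 16 := by positivity
    have hlogD : Real.log (r (i + 1) / 16) ≤ Real.log (4 * (r (i + 1) / 16)) :=
      Real.log_le_log hD0 (by linarith)
    have hlogD2 : Real.log (4 * (r (i + 1) / 16)) ≤ τ (i + 1) := by
      rw [Real.log_le_iff_le_exp (by positivity)]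
      have := hrs (i + 1) hi1
      linarith
    have g2 : Good m mu en er Cμ x₀ ρ₀ (xs (i + 1)) (Real.log (4 * (r (i + 1) / 16))) (τ (i + 1))
        (lam (i + 1)) θ q := g1.mono hlogD (by linarith) hlogD2
    have e1 := heights_mass hfl hκ hg hD0 (by rw [hqdef]) g2 hp'
    have e2 : K * lam (i + 1) * (Real.exp (2 * τ (i + 1)) / 2) ≤
        b1 m cκ c0 / (16 * C₅ ^ 2) * q ^ 2 := by
      have := h1 (i + 1) hi1
      have h0 : 0 ≤ K * lam (i + 1) * Real.exp (2 * τ (i + 1)) := by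
        have := hfl.K0
        have := hlam (i + 1) hi1
        positivity
      linarith
    have e3 : (K * lam (i + 1) + θ) * (τ (i + 1) - Real.log (4 * (r (i + 1) / 16))) * q ^ 2 ≤
        b1 m cκ c0 / (16 * C₅ ^ 2) * q ^ 2 := by
      refine mul_le_mul_of_nonneg_right (le_trans ?_ (h2 (i + 1) hi1)) (sq_nonneg q)
      refine mul_le_mul_of_nonneg_left (by linarith) ?_
      have := hfl.K0
      have := hlam (i + 1) hi1
      positivity
    have hbC : b1 m cκ c0 / (16 * C₅ ^ 2) ≤ b1 m cκ c0 / 16 := by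
      refine div_le_div_of_nonneg_left hb1.le (by norm_num) ?_
      nlinarith [hN.C1]
    have e4 : b1 m cκ c0 / 2 * q ^ 2 ≤ nu m κ mu (xs (i + 1)) (τ (i + 1)) (bump p' q) := by
      have e5 : q ^ 2 * (3 / 512) * cκ * (c0 / 4 ^ m) = b1 m cκ c0 * q ^ 2 := by
        unfold b1; ring
      rw [e5] at e1
      have e6 : b1 m cκ c0 / (16 * C₅ ^ 2) * q ^ 2 ≤ b1 m cκ c0 / 16 * q ^ 2 :=
        mul_le_mul_of_nonneg_right hbC (sq_nonneg q)
      have e7 : 0 ≤ b1 m cκ c0 * q ^ 2 := by positivity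
      linarith
    -- to the contact centre
    have e8 := hN.nu_le (xs (i + 1)) (τ (i + 1)) (bump p' q) (q ^ 2 / 32)
      (by have := hlmin (i + 1) hi1; linarith) (hlmax (i + 1) hi1)
      (by have := hdist (i + 1) hi1; have := Real.exp_pos (τ (i + 1)); linarith)
      (test_bump p' hq).meas (bump_nonneg p' q) (bump_le p' q)
    -- drift
    have e9 : N (τ (i + 1) + Real.log 4) (bump p' q) - N (τ i - Real.log 4) (bump p' q) ≤
        b1 m cκ c0 / (4 * C₅) * q ^ 2 := hdr i hi p'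
    have e11 : b1 m cκ c0 / (2 * C₅) * q ^ 2 ≤ N (τ (i + 1) + Real.log 4) (bump p' q) := by
      have e12 := e4.trans e8
      have : b1 m cκ c0 / (2 * C₅) * q ^ 2 = b1 m cκ c0 / 2 * q ^ 2 / C₅ := by field_simp
      rw [this, div_le_iff₀ hC₅]
      linarith
    have e13 : b1 m cκ c0 / (4 * C₅) * q ^ 2 ≤ N (τ i - Real.log 4) (bump p' q) := by
      have e14 : b1 m cκ c0 / (2 * C₅) * q ^ 2 = 2 * (b1 m cκ c0 / (4 * C₅) * q ^ 2) := by
        field_simp; ring
      linarith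
    -- to the good centre of scale `i`
    have e16 := hN.le_nu (xs i) (τ i - Real.log 4) (bump p' q) (q ^ 2 / 32)
      (hlmin i hi.le) (by have := hlmax i hi.le; linarith)
      (by
        rw [Real.exp_sub, hexp4]
        have := hdist i hi.le
        linarith)
      (test_bump p' hq).meas (bump_nonneg p' q) (bump_le p' q)
    rw [sub_add_cancel] at e16
    have e17 : b1 m cκ c0 / (4 * C₅ ^ 2) * q ^ 2 ≤ nu m κ mu (xs i) (τ i) (bump p' q) := by
      have e18 := e13.trans e16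
      have : b1 m cκ c0 / (4 * C₅ ^ 2) * q ^ 2 = b1 m cκ c0 / (4 * C₅) * q ^ 2 / C₅ := by
        field_simp
      rw [this, div_le_iff₀ hC₅]
      linarith
    have hi0 := hi.le
    have hDi : 0 < r i / 16 := by have := hr0 i hi0; positivity
    have g3 := hgood i hi0 q (hmono i hi)
    have hlogD3 : Real.log (r i / 16) ≤ τ i := by
      rw [Real.log_le_iff_le_exp hDi]
      have := hrs i hi0
      have := hr0 i hi0
      linarith
    have g4 : Good m mu en er Cμ x₀ ρ₀ (xs i) (Real.log (r i / 16)) (τ i) (lam i) θ q :=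
      g3.mono le_rfl (by linarith) hlogD3
    refine mass_heights hfl hκ hg hDi hq g4 (lt_of_lt_of_le ?_ e17)
    have e19 : K * lam i * (Real.exp (2 * τ i) / 2) ≤ b1 m cκ c0 / (16 * C₅ ^ 2) * q ^ 2 := by
      have h5 := h1 i hi0
      have h0 : 0 ≤ K * lam i * Real.exp (2 * τ i) := by
        have := hfl.K0
        have := hlam i hi0
        positivity
      have h6 : b1 m cκ c0 / (16 * C₅ ^ 2) * r i ^ 2 ≤ b1 m cκ c0 / (16 * C₅ ^ 2) * q ^ 2 := by
        refine mul_le_mul_of_nonneg_left ?_ (by positivity)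
        exact pow_le_pow_left₀ (hr0 i hi0).le (hmono i hi) 2
      linarith
    have e20 : (K * lam i + θ) * (τ i - Real.log (r i / 16)) * q ^ 2 ≤
        b1 m cκ c0 / (16 * C₅ ^ 2) * q ^ 2 := by
      refine mul_le_mul_of_nonneg_right (le_trans ?_ (h2 i hi0)) (sq_nonneg q)
      refine mul_le_mul_of_nonneg_left (by linarith) ?_
      have := hfl.K0
      have := hlam i hi0
      positivity
    have e21 : b1 m cκ c0 / (4 * C₅ ^ 2) * q ^ 2 =
        4 * (b1 m cκ c0 / (16 * C₅ ^ 2) * q ^ 2) := by field_simp; ring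
    have e22 : 0 < b1 m cκ c0 / (16 * C₅ ^ 2) * q ^ 2 := by positivity
    linarith
  -- the metric lemma
  obtain ⟨i, hi, C, hC1, hC2, hC3, hC4, hC5⟩ := exists_run (N := n)
    (fun i => Ht T (xs i) (r i / 16)) r (fun i => r i / 4) hne hn1 (hr0 0 (Nat.zero_le _))
    (by
      intro i hi k hk
      have hri := hr0 i hi
      have h7 := card_heights hg (D := r i / 16) (r := r i) (by positivity) (by linarith)
        (hgood i hi (r i) le_rfl) (by
          rw [Real.exp_add, hexp4]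
          have := hrs i hi
          linarith) hk
      exact_mod_cast h7.trans hn)
    hclose
    (by
      intro i hi
      have := hr i hi
      linarith)
  have hq : 0 < r (i + 1) / 2 := by
    have := hr0 (i + 1) hi
    positivity
  have hsep : Well_761.Sep C (r (i + 1) / 2) := by
    intro c hc c' hc' hne'
    have := hC5 c hc c' hc' hne'
    linarith
  refine ⟨i, hi, C, hC1, hC2, hC3, hsep, fun l hl => ?_⟩
  have hi0 := hi.le
  have hri := hr0 i hi0
  have hDi : 0 < r i / 16 := by positivity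
  have g3 := hgood i hi0 (r (i + 1) / 2) (by have := hr i hi; linarith)
  have e1 := hN.le_nu (xs i) l (wells C (r (i + 1) / 2)) ((r (i + 1) / 2) ^ 2)
    ((hlmin i hi0).trans hl.1) (hl.2.trans (hlmax i hi0))
    (by
      have h5 := hdist i hi0
      have h6 := Real.exp_le_exp.2 hl.1
      rw [Real.exp_sub, hexp4] at h6
      linarith)
    (test_wells hq hsep).meas (wells_nonneg hq hsep)
    (fun y => (le_abs_self _).trans ((test_wells hq hsep).bF y))
  have hlogD3 : Real.log (r i / 16) ≤ l + Real.log 4 := by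
    rw [Real.log_le_iff_le_exp hDi, Real.exp_add, hexp4]
    have h6 := Real.exp_le_exp.2 hl.1
    rw [Real.exp_sub, hexp4] at h6
    have := hrs i hi0
    linarith
  have g4 : Good m mu en er Cμ x₀ ρ₀ (xs i) (Real.log (r i / 16)) (l + Real.log 4) (lam i) θ
      (r (i + 1) / 2) := g3.mono le_rfl (by linarith [hl.2]) hlogD3
  have e2 := wells_small hwf hκ hg hDi hq g4 (hlam i hi0) hθw
    (fun l' hl' => herw i hi l' ⟨hl'.1, by linarith [hl'.2, hl.2]⟩) hsep (r := r i)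
    (fun y hy => by
      obtain ⟨c, hc, hd⟩ := hC4 y hy
      exact ⟨c, hc, hd.le⟩)
  have hKl : 0 ≤ K * lam i := mul_nonneg hfl.K0 (hlam i hi0)
  have e3 : K * lam i * (Real.exp (2 * (l + Real.log 4)) / 2) ≤ b1 m cκ c0 / 16 * r i ^ 2 := by
    have h5 : Real.exp (2 * (l + Real.log 4)) ≤ 16 * Real.exp (2 * τ i) := by
      have : 2 * (l + Real.log 4) = 2 * l + (Real.log 4 + Real.log 4) := by ring
      rw [this, Real.exp_add, Real.exp_add, hexp4]
      have := Real.exp_le_exp.2 (show 2 * l ≤ 2 * τ i by linarith [hl.2])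
      linarith
    have h6 : K * lam i * (Real.exp (2 * (l + Real.log 4)) / 2) ≤
        K * lam i * (16 * Real.exp (2 * τ i) / 2) :=
      mul_le_mul_of_nonneg_left (by linarith) hKl
    have h7 := h1 i hi0
    have hbC : b1 m cκ c0 / (16 * C₅ ^ 2) ≤ b1 m cκ c0 / 16 := by
      refine div_le_div_of_nonneg_left hb1.le (by norm_num) ?_
      nlinarith [hN.C1]
    have h8 : b1 m cκ c0 / (16 * C₅ ^ 2) * r i ^ 2 ≤ b1 m cκ c0 / 16 * r i ^ 2 :=
      mul_le_mul_of_nonneg_right hbC (sq_nonneg _)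
    linarith
  have e4 : (K * lam i + θw) * (l + Real.log 4 - Real.log (r i / 16)) * (r (i + 1) / 2) ^ 2 ≤
      (K * lam i + θw) * (τ i + Real.log 4 - Real.log (r i / 16)) * (r (i + 1) / 2) ^ 2 := by
    refine mul_le_mul_of_nonneg_right (mul_le_mul_of_nonneg_left (by linarith [hl.2]) ?_)
      (sq_nonneg _)
    linarith
  refine e1.trans (mul_le_mul_of_nonneg_left ?_ hC₅.le)
  have e5 : Real.exp (θ₁ * (l + Real.log 4 - Real.log (r i / 16))) ≤ 3 := by
    have h6 : θ₁ * (l + Real.log 4 - Real.log (r i / 16)) ≤ 1 :=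
      (mul_le_mul_of_nonneg_left (by linarith [hl.2]) hwf.θ0).trans (hθ₁ i hi0)
    have h7 := Real.exp_le_exp.2 h6
    have h8 := Real.exp_one_lt_d9
    linarith
  have e6 : 0 ≤ r i ^ 2 / 2 * Kκ * Cμ + K * lam i * (Real.exp (2 * (l + Real.log 4)) / 2) +
      (K * lam i + θw) * (l + Real.log 4 - Real.log (r i / 16)) * (r (i + 1) / 2) ^ 2 := by
    have h6 := hκ.Kpos
    have h7 := g4.Cpos
    have h8 : 0 ≤ l + Real.log 4 - Real.log (r i / 16) := by linarith
    positivity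
  refine e2.trans ((mul_le_mul_of_nonneg_right e5 e6).trans ?_)
  linarith

end run

section hrun

variable {H : Type*} [NormedAddCommGroup H] [NormedSpace ℝ H] [FiniteDimensional ℝ H]
  [MeasurableSpace H] [BorelSpace H]
variable {W : Type*} [NormedAddCommGroup W] [InnerProductSpace ℝ W] [MeasurableSpace W]
  [BorelSpace W]
variable {m : ℕ} {κ : ℝ → ℝ} {Kκ cκ : ℝ} {mu en : Measure (H × W)}
  {R : H → ℝ → ℝ} {er : H → ℝ → ℝ → ℝ} {K : ℝ} {x₀ : H} {ρ₀ : ℝ}

set_option maxHeartbeats 2000000 in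
/-- **THEOREM RUN**, in the form of `Core1_809.pt_false`; integrated drift. -/
theorem hrun2 (hm : finrank ℝ H = m) (hfl : Flow m κ mu en R er K x₀ ρ₀)
    {erw : H → ℝ → ℝ → ℝ} {θ₁ θw : ℝ} (hwf : WFlow m κ mu en erw K θ₁ x₀ ρ₀) (hκ : Ker κ Kκ cκ)
    {S : Set (H × W)} {Cμ c0 : ℝ} (hCμ : 0 ≤ Cμ) (hg : Geo m mu S c0 x₀ ρ₀)
    {n : ℕ} (hn1 : 1 ≤ n) (hn : 2 ^ m * Cμ / c0 ≤ n)
    {x : H} {lmin lmax : ℝ} {N : ℝ → (W → ℝ) → ℝ} {C₅ : ℝ}
    (hN : Centre m κ mu x lmin lmax N C₅)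
    {L0 a0 T M A θ Ce c1 Lg : ℝ} {U e : ℝ → ℝ}
    (hlmin : lmin ≤ L0 + a0 - Real.log 4) (hlmax : L0 + T ≤ lmax)
    (hdom : dist x x₀ + 17 * Real.exp (L0 + T) ≤ ρ₀)
    (hfin : en (cyl x (17 * Real.exp (L0 + T)) univ) ≠ ⊤)
    (hM : 0 < M) (hCe : 0 ≤ Ce) (hθ : 0 ≤ θ)
    -- the energy `e`
    (he : ∀ t ∈ Icc a0 T, (en (cyl x (17 * Real.exp (L0 + t)) univ)).toReal ≤
      Ce * Real.exp (m * (L0 + t)) * Real.exp (-(2 * (L0 + t))) * e (t + 3))
    -- `U`
    (hUa : 0 < U a0) (hUm : ∀ a b, a0 ≤ a → a ≤ b → b ≤ T → U a ≤ U b)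
    -- the errors
    (her : ∀ x' l q, dist x x' ≤ Real.exp (L0 + T) → Real.exp l ≤ 4 * Real.exp (L0 + T) →
      M * √(U a0) ≤ q → M * √(U a0) ≤ 16 * Real.exp l →
      (en (cyl x' (Real.exp l) univ)).toReal ≤ Real.exp (m * l) →
      (en (cyl x' (Real.exp l) univ)).toReal * Real.exp (2 * l) ≤ q ^ 2 * Real.exp (m * l) →
      mu (cyl x' (Real.exp l) univ) ≤ ENNReal.ofReal (Cμ * Real.exp (m * l)) →
      er x' l q ≤ θ * q ^ 2)
    (herw : ∀ x' l q, dist x x' ≤ Real.exp (L0 + T) → Real.exp l ≤ 4 * Real.exp (L0 + T) →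
      M * √(U a0) ≤ q → M * √(U a0) ≤ 16 * Real.exp l →
      (en (cyl x' (Real.exp l) univ)).toReal ≤ Real.exp (m * l) →
      (en (cyl x' (Real.exp l) univ)).toReal * Real.exp (2 * l) ≤ q ^ 2 * Real.exp (m * l) →
      mu (cyl x' (Real.exp l) univ) ≤ ENNReal.ofReal (Cμ * Real.exp (m * l)) →
      erw x' l q ≤ θw * q ^ 2)
    -- mass at good centres
    (hms : ∀ x' l0 l1 lam, dist x x' ≤ Real.exp l1 / 64 → L0 + a0 + Real.log 4 ≤ l1 →
      l1 ≤ L0 + T + Real.log 4 → l0 ≤ l1 → M * √(U a0) ≤ 16 * Real.exp l0 →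
      l1 + Real.log 4 - l0 ≤ 3 * Lg → 0 ≤ lam → lam ≤ 1 →
      (∀ l ∈ Icc l0 (l1 + Real.log 4),
        (en (cyl x' (Real.exp l) univ)).toReal ≤ lam * Real.exp (m * l)) →
      lam * (l1 + Real.log 4 - l0) ≤ 1 →
      ∀ l ∈ Icc l0 l1, mu (cyl x' (Real.exp l) univ) ≤ ENNReal.ofReal (Cμ * Real.exp (m * l)))
    (hdr : ∀ τ₁ τ₂ q, a0 ≤ τ₁ → 1 ≤ τ₁ → 16 * τ₁ ≤ τ₂ → τ₂ ≤ T → 0 < q →
      q ^ 2 = M ^ 2 * (U τ₂ * τ₂) → A * e (τ₂ + 3) ≤ M ^ 2 * (U τ₂ * τ₂) → ∀ p : W,
      N (L0 + τ₂ + Real.log 4) (bump p q) - N (L0 + τ₁ - Real.log 4) (bump p q) ≤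
        b1 m cκ c0 / (4 * C₅) * q ^ 2)
    -- mass at the contact centre
    (hmass : ∀ t ∈ Icc a0 T, c1 ≤ N (L0 + t) (fun _ => (1 : ℝ)))
    (hb1 : b1 m cκ c0 / (8 * C₅) < c1)
    -- the window
    (hLg1 : 1 ≤ Lg) (hLg : Real.log (64 * Real.exp (L0 + T) / (M * √(U a0))) ≤ Lg)
    (hw1 : M ^ 2 * (U T * T) * Lg ≤ Real.exp (2 * (L0 + a0)))
    (hθw : 0 ≤ θw) (hw2 : θw * Lg * (U T * T) ≤ U a0) (hw5 : θ₁ * Lg ≤ 1) (hw3 : θ * Lg ≤ b1 m cκ c0 / (32 * C₅ ^ 2))
    -- the constants `A`, `M`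
    (hA0 : 0 < A) (hA1 : 16 * (2 * 80 ^ m * Ce * K) / A ≤ b1 m cκ c0 / (32 * C₅ ^ 2))
    (hA2 : 32 * 80 ^ m * Ce ≤ A) (hA3 : 2 * 80 ^ m * Ce * K ≤ A) :
    ∀ τ : ℕ → ℝ, (∀ i ≤ n, a0 ≤ τ i ∧ τ i ≤ T ∧ 1 ≤ τ i) →
      (∀ i < n, 16 * τ i ≤ τ (i + 1)) →
      (∀ i ≤ n, A * e (τ i + 3) ≤ M ^ 2 * (U (τ i) * τ i)) →
      ∃ i < n, ∃ w : WCfg W, w.q ^ 2 = M ^ 2 * (U (τ (i + 1)) * τ (i + 1)) / 4 ∧
        2 * N (L0 + τ i) (wells w.C w.q) ≤
          (6 * C₅ * (Kκ * Cμ / 2 + b1 m cκ c0 / 16 + 1 / 2)) * M ^ 2 * (U (τ i) * τ i) := by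
  intro τ hτ hτ16 hτe
  have hb : 0 < b1 m cκ c0 := by
    unfold b1
    have := hκ.cpos
    have := hg.cpos
    positivity
  have hC₅ : 0 < C₅ := lt_of_lt_of_le one_pos hN.C1
  have hlog4 : 0 < Real.log 4 := Real.log_pos (by norm_num)
  have hlog42 : Real.log 4 ≤ 2 := by
    have h1 : Real.log 4 = 2 * Real.log 2 := by
      rw [show (4 : ℝ) = 2 ^ 2 by norm_num, Real.log_pow]; norm_num
    have := Real.log_two_lt_d9
    rw [h1]; linarith
  have hexp4 : Real.exp (Real.log 4) = 4 := Real.exp_log (by norm_num)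
  have hK := hfl.K0
  have haT : a0 ≤ T := (hτ 0 (Nat.zero_le _)).1.trans (hτ 0 (Nat.zero_le _)).2.1
  have hT1 : 1 ≤ T := (hτ 0 (Nat.zero_le _)).2.2.trans (hτ 0 (Nat.zero_le _)).2.1
  have hUmono := hUm
  have hUpos : ∀ i ≤ n, U a0 ≤ U (τ i) := fun i hi =>
    hUmono _ _ le_rfl (hτ i hi).1 (hτ i hi).2.1
  have hUi : ∀ i ≤ n, 0 < U (τ i) := fun i hi => lt_of_lt_of_le hUa (hUpos i hi)
  obtain ⟨r, hrdef⟩ : ∃ r : ℕ → ℝ, ∀ i, r i = M * √(U (τ i) * τ i) := ⟨_, fun _ => rfl⟩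
  have hr2 : ∀ i ≤ n, r i ^ 2 = M ^ 2 * (U (τ i) * τ i) := by
    intro i hi
    have h1 := (hUi i hi).le
    have h2 := (hτ i hi).2.2
    rw [hrdef, mul_pow, Real.sq_sqrt (by positivity)]
  have hrpos : ∀ i ≤ n, 0 < r i := by
    intro i hi
    have h1 := hUi i hi
    have h2 := (hτ i hi).2.2
    have : 0 < U (τ i) * τ i := by positivity
    rw [hrdef]
    exact mul_pos hM (Real.sqrt_pos.2 this)
  have hrmin : ∀ i ≤ n, M * √(U a0) ≤ r i := by
    intro i hi
    rw [hrdef]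
    refine mul_le_mul_of_nonneg_left (Real.sqrt_le_sqrt ?_) hM.le
    have h1 := hUpos i hi
    have h2 := (hτ i hi).2.2
    exact h1.trans (le_mul_of_one_le_right (hUi i hi).le h2)
  have hrmax : ∀ i ≤ n, r i ≤ M * √(U T * T) := by
    intro i hi
    rw [hrdef]
    refine mul_le_mul_of_nonneg_left (Real.sqrt_le_sqrt ?_) hM.le
    have h1 := hUmono (τ i) T (hτ i hi).1 (hτ i hi).2.1 le_rfl
    have h2 := (hτ i hi).2.2
    have h3 := (hτ i hi).2.1
    have h4 := hUi i hi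
    exact mul_le_mul h1 h3 (by linarith only [h2]) (h4.le.trans h1)
  have hUT : 0 < U T := lt_of_lt_of_le hUa (hUmono _ _ le_rfl haT le_rfl)
  have hrT : ∀ i ≤ n, r i ^ 2 * Lg ≤ Real.exp (2 * (L0 + a0)) := by
    intro i hi
    have h1 : r i ^ 2 ≤ M ^ 2 * (U T * T) := by
      have h2 := pow_le_pow_left₀ (hrpos i hi).le (hrmax i hi) 2
      have h3 : 0 ≤ U T * T := by positivity
      rwa [mul_pow M, Real.sq_sqrt h3] at h2
    calc r i ^ 2 * Lg ≤ M ^ 2 * (U T * T) * Lg := mul_le_mul_of_nonneg_right h1 (by linarith)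
      _ ≤ _ := hw1
  have hexpa : ∀ i ≤ n, Real.exp (2 * (L0 + a0)) ≤ Real.exp (L0 + τ i) ^ 2 := by
    intro i hi
    rw [← Real.exp_nat_mul]
    refine Real.exp_le_exp.2 ?_
    push_cast
    linarith [(hτ i hi).1]
  have hrs : ∀ i ≤ n, r i ≤ Real.exp (L0 + τ i) := by
    intro i hi
    have h1 := (hrT i hi).trans (hexpa i hi)
    have h2 : r i ^ 2 ≤ r i ^ 2 * Lg := le_mul_of_one_le_right (sq_nonneg _) hLg1
    exact (pow_le_pow_iff_left₀ (hrpos i hi).le (Real.exp_pos _).le two_ne_zero).1 (h2.trans h1)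
  -- the good centres
  obtain ⟨s, hsdef⟩ : ∃ s : ℕ → ℝ, ∀ i, s i = Real.exp (L0 + τ i) := ⟨_, fun _ => rfl⟩
  have hs0 : ∀ i, 0 < s i := fun i => by rw [hsdef]; exact Real.exp_pos _
  have hsT : ∀ i ≤ n, s i ≤ Real.exp (L0 + T) := fun i hi => by
    rw [hsdef]
    exact Real.exp_le_exp.2 (by linarith [(hτ i hi).2.1])
  have hfini : ∀ i ≤ n, en (cyl x (17 * s i) univ) ≠ ⊤ := by
    intro i hi
    refine ne_top_of_le_ne_top hfin (measure_mono (prod_mono (closedBall_subset_closedBall ?_)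
      le_rfl))
    linarith [hsT i hi]
  have hex : ∀ i, ∃ x', i ≤ n → dist x x' ≤ s i / 16 ∧ ∀ ρ, 0 < ρ → ρ ≤ 16 * s i →
      (en (cyl x' ρ univ)).toReal ≤
        2 * 80 ^ m * (en (cyl x (17 * s i) univ)).toReal / s i ^ m * ρ ^ m := by
    intro i
    by_cases hi : i ≤ n
    · obtain ⟨x', h1, h2⟩ := exists_good m hm en x (hs0 i) (hfini i hi)
      exact ⟨x', fun _ => ⟨h1, h2⟩⟩
    · exact ⟨x, fun h => absurd h hi⟩
  choose xs hxs using hex
  obtain ⟨lam, hlamdef⟩ : ∃ lam : ℕ → ℝ, ∀ i, lam i =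
      2 * 80 ^ m * (en (cyl x (17 * s i) univ)).toReal / s i ^ m := ⟨_, fun _ => rfl⟩
  have hlam0 : ∀ i, 0 ≤ lam i := by
    intro i
    have : 0 ≤ (en (cyl x (17 * s i) univ)).toReal := ENNReal.toReal_nonneg
    have := (hs0 i).le
    rw [hlamdef]
    positivity
  -- `lam i * s i ^ 2 ≤ 2 * 80 ^ m * Ce / A * r i ^ 2`
  have hlams : ∀ i ≤ n, lam i * s i ^ 2 ≤ 2 * 80 ^ m * Ce / A * r i ^ 2 := by
    intro i hi
    have h1 := he (τ i) ⟨(hτ i hi).1, (hτ i hi).2.1⟩
    have h2 : Real.exp (m * (L0 + τ i)) = s i ^ m := by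
      rw [hsdef, ← Real.exp_nat_mul]
    have h3 : Real.exp (-(2 * (L0 + τ i))) = 1 / s i ^ 2 := by
      rw [hsdef, ← Real.exp_nat_mul, Real.exp_neg, one_div]
      push_cast
      rfl
    rw [h2, h3, ← hsdef] at h1
    have hs2 : 0 < s i ^ 2 := pow_pos (hs0 i) 2
    have hsm : 0 < s i ^ m := pow_pos (hs0 i) m
    have h4 : lam i * s i ^ 2 ≤ 2 * 80 ^ m * Ce * e (τ i + 3) := by
      have h5 : lam i * s i ^ 2 = 2 * 80 ^ m *
          ((en (cyl x (17 * s i) univ)).toReal * (s i ^ 2 / s i ^ m)) := by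
        rw [hlamdef]
        field_simp
      rw [h5]
      have h6 : (en (cyl x (17 * s i) univ)).toReal * (s i ^ 2 / s i ^ m) ≤
          Ce * s i ^ m * (1 / s i ^ 2) * e (τ i + 3) * (s i ^ 2 / s i ^ m) :=
        mul_le_mul_of_nonneg_right h1 (by positivity)
      have h7 : Ce * s i ^ m * (1 / s i ^ 2) * e (τ i + 3) * (s i ^ 2 / s i ^ m) =
          Ce * e (τ i + 3) := by
        calc _ = Ce * e (τ i + 3) * (s i ^ m / s i ^ m) * (s i ^ 2 / s i ^ 2) := by ring
          _ = _ := by rw [div_self hsm.ne', div_self hs2.ne', mul_one, mul_one]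
      rw [h7] at h6
      calc _ ≤ 2 * 80 ^ m * (Ce * e (τ i + 3)) := mul_le_mul_of_nonneg_left h6 (by positivity)
        _ = _ := by ring
    have h8 : e (τ i + 3) ≤ r i ^ 2 / A := by
      rw [le_div_iff₀ hA0, hr2 i hi]
      linarith [hτe i hi]
    calc lam i * s i ^ 2 ≤ 2 * 80 ^ m * Ce * e (τ i + 3) := h4
      _ ≤ 2 * 80 ^ m * Ce * (r i ^ 2 / A) := mul_le_mul_of_nonneg_left h8 (by positivity)
      _ = _ := by ring
  have hCA : 2 * 80 ^ m * Ce / A ≤ 1 / 16 := by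
    rw [div_le_iff₀ hA0]
    linarith
  have hlam1 : ∀ i ≤ n, lam i ≤ 1 := by
    intro i hi
    have h1 := hlams i hi
    have h2 := hrs i hi
    rw [← hsdef] at h2
    have h3 : r i ^ 2 ≤ s i ^ 2 := pow_le_pow_left₀ (hrpos i hi).le h2 2
    have hs2 : 0 < s i ^ 2 := pow_pos (hs0 i) 2
    have h4 : 2 * 80 ^ m * Ce / A * r i ^ 2 ≤ 1 / 16 * s i ^ 2 := by
      calc 2 * 80 ^ m * Ce / A * r i ^ 2 ≤ 1 / 16 * r i ^ 2 :=
            mul_le_mul_of_nonneg_right hCA (sq_nonneg _)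
        _ ≤ _ := by linarith
    exact le_of_mul_le_mul_right (by linarith only [h1, h4, h3, hs2] : lam i * s i ^ 2 ≤ 1 * s i ^ 2) hs2
  -- smallness
  have hsm2 : ∀ i, Real.exp (2 * (L0 + τ i)) = s i ^ 2 := by
    intro i
    rw [hsdef, ← Real.exp_nat_mul]; push_cast; rfl
  have h1 : ∀ i ≤ n, 8 * K * lam i * Real.exp (2 * (L0 + τ i)) ≤
      b1 m cκ c0 / (16 * C₅ ^ 2) * r i ^ 2 := by
    intro i hi
    rw [hsm2]
    have h2 := hlams i hi
    have h3 : 8 * K * lam i * s i ^ 2 ≤ 8 * K * (2 * 80 ^ m * Ce / A * r i ^ 2) := by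
      rw [mul_assoc]
      exact mul_le_mul_of_nonneg_left h2 (by positivity)
    have h4 : 8 * K * (2 * 80 ^ m * Ce / A * r i ^ 2) =
        (16 * (2 * 80 ^ m * Ce * K) / A) / 2 * r i ^ 2 := by ring
    rw [h4] at h3
    refine h3.trans (mul_le_mul_of_nonneg_right ?_ (sq_nonneg _))
    have h5 : b1 m cκ c0 / (16 * C₅ ^ 2) = 2 * (b1 m cκ c0 / (32 * C₅ ^ 2)) := by
      field_simp; ring
    rw [h5]
    have h6 : 0 ≤ 16 * (2 * 80 ^ m * Ce * K) / A := by positivity
    linarith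
  have hlog : ∀ i ≤ n, L0 + τ i + Real.log 4 - Real.log (r i / 16) ≤ Lg := by
    intro i hi
    have hri := hrpos i hi
    have hsi := hs0 i
    refine le_trans (le_of_eq ?_) ((Real.log_le_log (by positivity)
      (?_ : 64 * s i / r i ≤ 64 * Real.exp (L0 + T) / (M * √(U a0)))).trans hLg)
    · rw [Real.log_div (by positivity) hri.ne', Real.log_mul (by norm_num) (hs0 i).ne',
        Real.log_div hri.ne' (by norm_num)]
      have h5 : Real.log 64 = Real.log 4 + Real.log 16 := by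
        rw [← Real.log_mul (by norm_num) (by norm_num)]; norm_num
      have h6 : Real.log (s i) = L0 + τ i := by rw [hsdef]; exact Real.log_exp _
      rw [h5, h6]; ring
    · have h7 : 0 < M * √(U a0) := mul_pos hM (Real.sqrt_pos.2 hUa)
      exact div_le_div₀ (by positivity) (by linarith [hsT i hi]) h7 (hrmin i hi)
  have hgood : ∀ i ≤ n, ∀ q, r i ≤ q →
      Good m mu en er Cμ x₀ ρ₀ (xs i) (Real.log (r i / 16)) (L0 + τ i + Real.log 4) (lam i)
        θ q := by
    intro i hi q hq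
    obtain ⟨h1', h2⟩ := hxs i hi
    have hri := hrpos i hi
    have hen' : ∀ l ∈ Icc (Real.log (r i / 16)) (L0 + τ i + Real.log 4 + Real.log 4),
        (en (cyl (xs i) (Real.exp l) univ)).toReal ≤ lam i * Real.exp (m * l) := by
      intro l hl
      have h3 := h2 (Real.exp l) (Real.exp_pos l) (by
        have h4 := Real.exp_le_exp.2 hl.2
        rw [Real.exp_add, Real.exp_add, hexp4, ← hsdef] at h4
        have := hs0 i
        linarith)
      rw [← Real.exp_nat_mul, ← hlamdef] at h3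
      exact h3
    have hen : ∀ l ∈ Icc (Real.log (r i / 16)) (L0 + τ i + Real.log 4),
        (en (cyl (xs i) (Real.exp l) univ)).toReal ≤ lam i * Real.exp (m * l) :=
      fun l hl => hen' l ⟨hl.1, by linarith [hl.2]⟩
    have hle : Real.log (r i / 16) ≤ L0 + τ i + Real.log 4 := by
      rw [Real.log_le_iff_le_exp (by positivity), Real.exp_add, hexp4]
      have := hrs i hi
      have := Real.exp_pos (L0 + τ i)
      linarith
    have hmass' : ∀ l ∈ Icc (Real.log (r i / 16)) (L0 + τ i + Real.log 4),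
        mu (cyl (xs i) (Real.exp l) univ) ≤ ENNReal.ofReal (Cμ * Real.exp (m * l)) := by
      refine hms (xs i) _ _ (lam i) ?_ ?_ ?_ hle ?_ ?_ (hlam0 i) (hlam1 i hi) hen' ?_
      · rw [Real.exp_add, hexp4, ← hsdef]
        linarith
      · linarith [(hτ i hi).1]
      · linarith [(hτ i hi).2.1]
      · rw [Real.exp_log (by positivity)]
        linarith [hrmin i hi]
      · have := hlog i hi
        linarith
      · have h3 : L0 + τ i + Real.log 4 + Real.log 4 - Real.log (r i / 16) ≤ 3 * Lg := by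
          have := hlog i hi
          linarith
        have hs2 : 0 < s i ^ 2 := pow_pos (hs0 i) 2
        have h4 : lam i ≤ 2 * 80 ^ m * Ce / A * r i ^ 2 / s i ^ 2 := by
          rw [le_div_iff₀ hs2]
          exact hlams i hi
        have h5 : r i ^ 2 * Lg / s i ^ 2 ≤ 1 := by
          rw [div_le_one hs2, hsdef]
          exact (hrT i hi).trans (hexpa i hi)
        have h6 : 0 ≤ 2 * 80 ^ m * Ce / A := by positivity
        calc lam i * (L0 + τ i + Real.log 4 + Real.log 4 - Real.log (r i / 16))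
            ≤ lam i * (3 * Lg) := mul_le_mul_of_nonneg_left h3 (hlam0 i)
          _ ≤ 2 * 80 ^ m * Ce / A * r i ^ 2 / s i ^ 2 * (3 * Lg) :=
              mul_le_mul_of_nonneg_right h4 (by linarith)
          _ = 3 * (2 * 80 ^ m * Ce / A) * (r i ^ 2 * Lg / s i ^ 2) := by ring
          _ ≤ 3 * (1 / 16) * 1 := by
              refine mul_le_mul ?_ h5 (by positivity) (by norm_num)
              linarith
          _ ≤ 1 := by norm_num
    refine ⟨?_, ?_, hen, ?_, hCμ, hmass'⟩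
    · exact hle
    · rw [Real.exp_add, hexp4, ← hsdef]
      have h3 := hsT i hi
      have h4 := dist_triangle (xs i) x x₀
      rw [dist_comm (xs i) x] at h4
      have := hs0 i
      linarith
    · intro l hl
      have h3 := hen l hl
      have h4 : Real.exp l ≤ 4 * s i := by
        have h5 := Real.exp_le_exp.2 hl.2
        rw [Real.exp_add, hexp4, ← hsdef] at h5
        linarith
      have h5 : r i / 16 ≤ Real.exp l := by
        rw [← Real.log_le_iff_le_exp (by positivity)]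
        exact hl.1
      refine her (xs i) l q ?_ ?_ ((hrmin i hi).trans hq) ?_ ?_ ?_ (hmass' l hl)
      · have := hsT i hi
        have := hs0 i
        linarith
      · have := hsT i hi
        linarith
      · have := hrmin i hi
        linarith
      · refine h3.trans ?_
        have := Real.exp_pos (m * l)
        exact mul_le_of_le_one_left this.le (hlam1 i hi)
      · have h6 : Real.exp (2 * l) ≤ 16 * s i ^ 2 := by
          have h7 : Real.exp (2 * l) = Real.exp l ^ 2 := by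
            rw [← Real.exp_nat_mul]; push_cast; rfl
          rw [h7]
          calc Real.exp l ^ 2 ≤ (4 * s i) ^ 2 := pow_le_pow_left₀ (Real.exp_pos l).le h4 2
            _ = _ := by ring
        have h8 : lam i * Real.exp (2 * l) ≤ q ^ 2 := by
          calc lam i * Real.exp (2 * l) ≤ lam i * (16 * s i ^ 2) :=
                mul_le_mul_of_nonneg_left h6 (hlam0 i)
            _ = 16 * (lam i * s i ^ 2) := by ring
            _ ≤ 16 * (2 * 80 ^ m * Ce / A * r i ^ 2) :=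
                mul_le_mul_of_nonneg_left (hlams i hi) (by norm_num)
            _ ≤ 16 * (1 / 16 * r i ^ 2) := by
                refine mul_le_mul_of_nonneg_left ?_ (by norm_num)
                exact mul_le_mul_of_nonneg_right hCA (sq_nonneg _)
            _ = r i ^ 2 := by ring
            _ ≤ q ^ 2 := pow_le_pow_left₀ hri.le hq 2
        calc (en (cyl (xs i) (Real.exp l) univ)).toReal * Real.exp (2 * l)
            ≤ lam i * Real.exp (m * l) * Real.exp (2 * l) :=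
              mul_le_mul_of_nonneg_right h3 (Real.exp_pos _).le
          _ = lam i * Real.exp (2 * l) * Real.exp (m * l) := by ring
          _ ≤ q ^ 2 * Real.exp (m * l) := mul_le_mul_of_nonneg_right h8 (Real.exp_pos _).le
  have hlogpos : ∀ i ≤ n, 0 ≤ L0 + τ i + Real.log 4 - Real.log (r i / 16) := by
    intro i hi
    have := (hgood i hi (r i) le_rfl).le
    linarith
  have hKlog : ∀ i ≤ n, K * lam i * (L0 + τ i + Real.log 4 - Real.log (r i / 16)) ≤
      2 * 80 ^ m * Ce * K / A * (r i ^ 2 * Lg / s i ^ 2) := by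
    intro i hi
    have hs2 : 0 < s i ^ 2 := pow_pos (hs0 i) 2
    have h2 : lam i ≤ 2 * 80 ^ m * Ce / A * r i ^ 2 / s i ^ 2 := by
      rw [le_div_iff₀ hs2]
      exact hlams i hi
    calc K * lam i * (L0 + τ i + Real.log 4 - Real.log (r i / 16))
        ≤ K * lam i * Lg :=
          mul_le_mul_of_nonneg_left (hlog i hi) (mul_nonneg hK (hlam0 i))
      _ ≤ K * (2 * 80 ^ m * Ce / A * r i ^ 2 / s i ^ 2) * Lg :=
          mul_le_mul_of_nonneg_right (mul_le_mul_of_nonneg_left h2 hK) (by linarith)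
      _ = _ := by ring
  have hrLs : ∀ i ≤ n, r i ^ 2 * Lg / s i ^ 2 ≤ 1 := by
    intro i hi
    rw [div_le_one (pow_pos (hs0 i) 2), hsdef]
    exact (hrT i hi).trans (hexpa i hi)
  have h2 : ∀ i ≤ n, (K * lam i + θ) * (L0 + τ i + Real.log 4 - Real.log (r i / 16)) ≤
      b1 m cκ c0 / (16 * C₅ ^ 2) := by
    intro i hi
    have h3 := hKlog i hi
    have h4 := hrLs i hi
    have h5 : 2 * 80 ^ m * Ce * K / A * (r i ^ 2 * Lg / s i ^ 2) ≤
        b1 m cκ c0 / (32 * C₅ ^ 2) := by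
      have h6 : 0 ≤ 2 * 80 ^ m * Ce * K / A := by positivity
      have h7 : 16 * (2 * 80 ^ m * Ce * K) / A = 16 * (2 * 80 ^ m * Ce * K / A) := by ring
      rw [h7] at hA1
      calc 2 * 80 ^ m * Ce * K / A * (r i ^ 2 * Lg / s i ^ 2) ≤
            2 * 80 ^ m * Ce * K / A * 1 := mul_le_mul_of_nonneg_left h4 h6
        _ ≤ _ := by linarith
    have h8 : θ * (L0 + τ i + Real.log 4 - Real.log (r i / 16)) ≤ b1 m cκ c0 / (32 * C₅ ^ 2) :=
      (mul_le_mul_of_nonneg_left (hlog i hi) hθ).trans hw3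
    have h9 : b1 m cκ c0 / (16 * C₅ ^ 2) = 2 * (b1 m cκ c0 / (32 * C₅ ^ 2)) := by
      field_simp; ring
    rw [h9, add_mul]
    linarith
  have hne : ∀ i ≤ n, (Ht S (xs i) (r i / 16)).Nonempty := by
    intro i hi
    have hri := hrpos i hi
    have g := hgood i hi (r i) le_rfl
    have e1 := hN.le_nu (xs i) (L0 + τ i) (fun _ => (1 : ℝ)) 1
      (by linarith [(hτ i hi).1]) (by linarith [(hτ i hi).2.1])
      (by have := (hxs i hi).1; have := hs0 i; rw [← hsdef]; linarith)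
      measurable_const (fun _ => zero_le_one) (fun _ => le_rfl)
    have e2 := hmass (τ i) ⟨(hτ i hi).1, (hτ i hi).2.1⟩
    have e3 : c1 / C₅ ≤ nu m κ mu (xs i) (L0 + τ i + Real.log 4) (fun _ : W => (1 : ℝ)) := by
      rw [div_le_iff₀ hC₅]; linarith
    refine heights_nonempty hfl hκ hg (by positivity) hri g e3 ?_
    have e4 : K * lam i * (Real.exp (2 * (L0 + τ i + Real.log 4)) / 2) ≤
        b1 m cκ c0 / (16 * C₅ ^ 2) * r i ^ 2 := by
      have e5 : Real.exp (2 * (L0 + τ i + Real.log 4)) = 16 * Real.exp (2 * (L0 + τ i)) := by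
        have : 2 * (L0 + τ i + Real.log 4) = 2 * (L0 + τ i) + (Real.log 4 + Real.log 4) := by ring
        rw [this, Real.exp_add, Real.exp_add, hexp4]; ring
      rw [e5]
      have := h1 i hi
      linarith
    have e6 := mul_le_mul_of_nonneg_right (h2 i hi) (sq_nonneg (r i))
    have e7 : b1 m cκ c0 / (16 * C₅ ^ 2) * r i ^ 2 + b1 m cκ c0 / (16 * C₅ ^ 2) * r i ^ 2 =
        b1 m cκ c0 / (8 * C₅) / C₅ * r i ^ 2 := by field_simp; ring
    have e8 : b1 m cκ c0 / (8 * C₅) / C₅ * r i ^ 2 < c1 / C₅ * r i ^ 2 :=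
      mul_lt_mul_of_pos_right (div_lt_div_of_pos_right hb1 hC₅) (by positivity)
    linarith
  have hτmono : ∀ i < n, τ i ≤ τ (i + 1) := by
    intro i hi
    have := hτ16 i hi
    have := (hτ i hi.le).2.2
    linarith
  have hr : ∀ i < n, 2 * r i ≤ r (i + 1) := by
    intro i hi
    have h3 : (2 * r i) ^ 2 ≤ r (i + 1) ^ 2 := by
      rw [mul_pow, hr2 i hi.le, hr2 (i + 1) hi]
      have h4 := hUmono (τ i) (τ (i + 1)) (hτ i hi.le).1 (hτmono i hi) (hτ (i + 1) hi).2.1
      have h5 := hτ16 i hi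
      have h6 := (hτ i hi.le).2.2
      have h7 := hUi i hi.le
      have h8 : 16 * (U (τ i) * τ i) ≤ U (τ (i + 1)) * τ (i + 1) := by
        calc 16 * (U (τ i) * τ i) = U (τ i) * (16 * τ i) := by ring
          _ ≤ U (τ (i + 1)) * τ (i + 1) :=
              mul_le_mul h4 h5 (by positivity) (hUi (i + 1) hi).le
      have h9 : M ^ 2 * (16 * (U (τ i) * τ i)) ≤ M ^ 2 * (U (τ (i + 1)) * τ (i + 1)) :=
        mul_le_mul_of_nonneg_left h8 (sq_nonneg M)
      have h10 : 0 ≤ M ^ 2 * (U (τ i) * τ i) := by positivity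
      linarith
    exact (pow_le_pow_iff_left₀ (by have := hrpos i hi.le; positivity)
      (hrpos (i + 1) hi).le two_ne_zero).1 h3
  -- the error of the wells
  have herw' : ∀ i < n, ∀ l ∈ Icc (Real.log (r i / 16)) (L0 + τ i + Real.log 4),
      erw (xs i) l (r (i + 1) / 2) ≤ θw * (r (i + 1) / 2) ^ 2 := by
    intro i hi l hl
    have hi0 := hi.le
    have hri := hrpos i hi0
    have hq := hr i hi
    have h3 := (hgood i hi0 (r i) le_rfl).en l hl
    have h4 : Real.exp l ≤ 4 * s i := by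
      have h5 := Real.exp_le_exp.2 hl.2
      rw [Real.exp_add, hexp4, ← hsdef] at h5
      linarith
    have h5 : r i / 16 ≤ Real.exp l := by
      rw [← Real.log_le_iff_le_exp (by positivity)]
      exact hl.1
    have hmin := hrmin i hi0
    have hsT' := hsT i hi0
    have hs0' := hs0 i
    refine herw (xs i) l _ ?_ ?_ ?_ ?_ ?_ ?_ ((hgood i hi0 (r i) le_rfl).mass l hl)
    · have := (hxs i hi0).1
      linarith
    · linarith
    · linarith
    · linarith
    · refine h3.trans ?_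
      have := Real.exp_pos (m * l)
      exact mul_le_of_le_one_left this.le (hlam1 i hi0)
    · have h6 : Real.exp (2 * l) ≤ 16 * s i ^ 2 := by
        have h7 : Real.exp (2 * l) = Real.exp l ^ 2 := by
          rw [← Real.exp_nat_mul]; push_cast; rfl
        rw [h7]
        calc Real.exp l ^ 2 ≤ (4 * s i) ^ 2 := pow_le_pow_left₀ (Real.exp_pos l).le h4 2
          _ = _ := by ring
      have h8 : lam i * Real.exp (2 * l) ≤ (r (i + 1) / 2) ^ 2 := by
        calc lam i * Real.exp (2 * l) ≤ lam i * (16 * s i ^ 2) :=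
              mul_le_mul_of_nonneg_left h6 (hlam0 i)
          _ = 16 * (lam i * s i ^ 2) := by ring
          _ ≤ 16 * (2 * 80 ^ m * Ce / A * r i ^ 2) :=
              mul_le_mul_of_nonneg_left (hlams i hi0) (by norm_num)
          _ ≤ 16 * (1 / 16 * r i ^ 2) := by
              refine mul_le_mul_of_nonneg_left ?_ (by norm_num)
              exact mul_le_mul_of_nonneg_right hCA (sq_nonneg _)
          _ = r i ^ 2 := by ring
          _ ≤ (r (i + 1) / 2) ^ 2 := pow_le_pow_left₀ hri.le (by linarith) 2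
      calc (en (cyl (xs i) (Real.exp l) univ)).toReal * Real.exp (2 * l)
          ≤ lam i * Real.exp (m * l) * Real.exp (2 * l) :=
            mul_le_mul_of_nonneg_right h3 (Real.exp_pos _).le
        _ = lam i * Real.exp (2 * l) * Real.exp (m * l) := by ring
        _ ≤ (r (i + 1) / 2) ^ 2 * Real.exp (m * l) :=
            mul_le_mul_of_nonneg_right h8 (Real.exp_pos _).le
  obtain ⟨i, hi, C, hC1, hC2, hC3, hC4, hC5⟩ := run2 hfl hκ hwf hg hn1 hn hN
    (fun i => L0 + τ i) r lam xs hrpos hr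
    (fun i hi => by rw [← hsdef]; exact (hxs i hi).1)
    (fun i hi => by linarith [(hτ i hi).1]) (fun i hi => by linarith [(hτ i hi).2.1]) hgood
    hθw herw'
    (fun i hi => (mul_le_mul_of_nonneg_left (hlog i hi) hwf.θ0).trans hw5)
    (fun i hi => by
      have := hrs i hi
      have := Real.exp_pos (L0 + τ i)
      linarith)
    (fun i _ => hlam0 i) hθ h1 h2 hne (fun i hi => by linarith [hτmono i hi])
    (fun i hi p => hdr (τ i) (τ (i + 1)) (r (i + 1)) (hτ i hi.le).1 (hτ i hi.le).2.2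
      (hτ16 i hi) (hτ (i + 1) hi).2.1 (hrpos (i + 1) hi) (hr2 (i + 1) hi) (hτe (i + 1) hi) p)
  refine ⟨i, hi, ⟨C, r (i + 1) / 2, by have := hrpos (i + 1) hi; positivity, hC4⟩, ?_, ?_⟩
  · simp only
    rw [div_pow, hr2 (i + 1) hi]
    norm_num
  · have h3 := hC5 (L0 + τ i) ⟨by linarith, le_rfl⟩
    have hi0 := hi.le
    have h4 : (K * lam i + θw) * (L0 + τ i + Real.log 4 - Real.log (r i / 16)) *
        (r (i + 1) / 2) ^ 2 ≤ 1 / 2 * r i ^ 2 := by
      have hs2 : 0 < s i ^ 2 := pow_pos (hs0 i) 2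
      have h5 := mul_le_mul_of_nonneg_right (hKlog i hi0) (sq_nonneg (r (i + 1)))
      have h6 : 2 * 80 ^ m * Ce * K / A * (r i ^ 2 * Lg / s i ^ 2) * r (i + 1) ^ 2 ≤ r i ^ 2 := by
        have h7 : 2 * 80 ^ m * Ce * K / A ≤ 1 := by
          rw [div_le_one hA0]; exact hA3
        have h8 : r (i + 1) ^ 2 * Lg / s i ^ 2 ≤ 1 := by
          rw [div_le_one hs2, hsdef]
          exact (hrT (i + 1) hi).trans (hexpa i hi0)
        calc 2 * 80 ^ m * Ce * K / A * (r i ^ 2 * Lg / s i ^ 2) * r (i + 1) ^ 2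
            = 2 * 80 ^ m * Ce * K / A * (r (i + 1) ^ 2 * Lg / s i ^ 2) * r i ^ 2 := by ring
          _ ≤ 1 * 1 * r i ^ 2 := by
              refine mul_le_mul_of_nonneg_right ?_ (sq_nonneg _)
              exact mul_le_mul h7 h8 (by positivity) zero_le_one
          _ = r i ^ 2 := by ring
      have h9 : θw * (L0 + τ i + Real.log 4 - Real.log (r i / 16)) * r (i + 1) ^ 2 ≤ r i ^ 2 := by
        have h10 : r (i + 1) ^ 2 ≤ M ^ 2 * (U T * T) := by
          have h2 := pow_le_pow_left₀ (hrpos (i + 1) hi).le (hrmax (i + 1) hi) 2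
          rwa [mul_pow, Real.sq_sqrt (by positivity)] at h2
        have h11 : M ^ 2 * U a0 ≤ r i ^ 2 := by
          have h2 := pow_le_pow_left₀ (by positivity) (hrmin i hi0) 2
          rwa [mul_pow, Real.sq_sqrt hUa.le] at h2
        calc θw * (L0 + τ i + Real.log 4 - Real.log (r i / 16)) * r (i + 1) ^ 2
            ≤ θw * Lg * (M ^ 2 * (U T * T)) :=
              mul_le_mul (mul_le_mul_of_nonneg_left (hlog i hi0) hθw) h10 (sq_nonneg _)
                (by positivity)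
          _ = M ^ 2 * (θw * Lg * (U T * T)) := by ring
          _ ≤ M ^ 2 * U a0 := mul_le_mul_of_nonneg_left hw2 (sq_nonneg M)
          _ ≤ r i ^ 2 := h11
      have h12 : (K * lam i + θw) * (L0 + τ i + Real.log 4 - Real.log (r i / 16)) *
          (r (i + 1) / 2) ^ 2 = (K * lam i * (L0 + τ i + Real.log 4 - Real.log (r i / 16)) *
          r (i + 1) ^ 2 + θw * (L0 + τ i + Real.log 4 - Real.log (r i / 16)) *
          r (i + 1) ^ 2) / 4 := by ring
      rw [h12]
      have : 0 ≤ r i ^ 2 := sq_nonneg _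
      linarith
    have h13 : C₅ * (3 * ((Kκ * Cμ / 2 + b1 m cκ c0 / 16) * r i ^ 2 +
        (K * lam i + θw) * (L0 + τ i + Real.log 4 - Real.log (r i / 16)) *
          (r (i + 1) / 2) ^ 2)) ≤
        C₅ * (3 * ((Kκ * Cμ / 2 + b1 m cκ c0 / 16 + 1 / 2) * r i ^ 2)) := by
      refine mul_le_mul_of_nonneg_left ?_ hC₅.le
      linarith
    have h14 := h3.trans h13
    rw [hr2 i hi0] at h14
    linarith

end hrun

end Crest.Agent.R234.Rn_870
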