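import Crest.Agent.R234.Sw1_733

/-! # Row 234, VF-F6 (helper733), part 7: interpolation with finitely many derivatives -/

set_option autoImplicit false
set_option linter.unusedSectionVars false

open MeasureTheory Set Metric Filter Topology
open scoped ENNReal NNReal ContDiff

noncomputable section

namespace Crest.Agent.R234.Sw_733

variable {F : Type*} [NormedAddCommGroup F] [InnerProductSpace ℝ F] [FiniteDimensional ℝ F]
  [MeasurableSpace F] [BorelSpace F] {G : Type*} [NormedAddCommGroup G] [NormedSpace ℝ G]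
  [CompleteSpace G]

/-- Landau's inequality for iterated derivatives. -/
theorem landau_iterN {f : F → G} {j : ℕ} (hf : ContDiff ℝ ((j + 2 : ℕ) : ℕ∞) f) {x : F} {a b t : ℝ} (ht : 0 < t)
    (ha : ∀ z ∈ ball x (2 * t), ‖iteratedFDeriv ℝ j f z‖ ≤ a)
    (hb : ∀ z ∈ ball x (2 * t), ‖iteratedFDeriv ℝ (j + 2) f z‖ ≤ b) :
    ‖iteratedFDeriv ℝ (j + 1) f x‖ ≤ 2 * a / t + b * t := by
  have hx : x ∈ ball x (2 * t) := mem_ball_self (by linarith)
  have hb0 : 0 ≤ b := (norm_nonneg _).trans (hb x hx)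
  have hd : ∀ i ≤ j + 1, Differentiable ℝ (iteratedFDeriv ℝ i f) := fun i hi =>
    hf.differentiable_iteratedFDeriv (by exact_mod_cast (show i < j + 2 by omega))
  have hfd : ∀ z, fderiv ℝ (iteratedFDeriv ℝ j f) z =
      (continuousMultilinearCurryLeftEquiv ℝ (fun _ : Fin (j + 1) => F) G)
        (iteratedFDeriv ℝ (j + 1) f z) := by
    intro z
    rw [fderiv_iteratedFDeriv]
    rfl
  have h1 : ∀ z ∈ ball x (2 * t), ‖fderiv ℝ (iteratedFDeriv ℝ j f) z -
      fderiv ℝ (iteratedFDeriv ℝ j f) x‖ ≤ b * ‖z - x‖ := by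
    intro z hz
    have hiso := (continuousMultilinearCurryLeftEquiv ℝ (fun _ : Fin (j + 1) => F) G).isometry.dist_eq
      (iteratedFDeriv ℝ (j + 1) f z) (iteratedFDeriv ℝ (j + 1) f x)
    rw [← hfd, ← hfd, dist_eq_norm, dist_eq_norm] at hiso
    rw [hiso]
    refine (convex_ball x (2 * t)).norm_image_sub_le_of_norm_fderiv_le (𝕜 := ℝ)
      (f := iteratedFDeriv ℝ (j + 1) f) (fun y _ => (hd (j + 1) le_rfl) y) ?_ hx hz
    intro y hy
    rw [norm_fderiv_iteratedFDeriv]
    exact hb y hy
  have := landau (f := iteratedFDeriv ℝ j f) (x := x) ht (fun z _ => (hd j (by omega)) z) ha h1 hb0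
  rwa [norm_fderiv_iteratedFDeriv] at this

/-- the induction. -/
theorem interp_auxN {w : F → G} {J : ℕ} (hw : ContDiff ℝ ((J + 1 : ℕ) : ℕ∞) w) {A C ρ R : ℝ} (hρ : 0 < ρ)
    (_hA0 : 0 ≤ A) (hA : ∀ j ≤ J + 1, ∀ z ∈ ball (0 : F) R, ‖iteratedFDeriv ℝ j w z‖ ≤ A)
    (h0 : ∀ z ∈ ball (0 : F) R, ‖w z‖ ≤ C * ρ * A) :
    ∀ j ≤ J, ∀ z ∈ ball (0 : F) (R - 2 * ∑ i ∈ Finset.range j, rt ρ (i + 1)),
      ‖iteratedFDeriv ℝ j w z‖ ≤ ct C j * rt ρ j * A := by
  intro j
  induction j with
  | zero =>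
    intro _ z hz
    simp only [Finset.range_zero, Finset.sum_empty, mul_zero, sub_zero] at hz
    rw [norm_iteratedFDeriv_zero]
    exact h0 z hz
  | succ j ih =>
    intro hj z hz
    rw [Finset.sum_range_succ] at hz
    set S := ∑ i ∈ Finset.range j, rt ρ (i + 1) with hS
    set t := rt ρ (j + 1) with ht
    have htp : 0 < t := rt_pos hρ _
    have hS0 : 0 ≤ S := Finset.sum_nonneg fun i _ => (rt_pos hρ _).le
    have hsub : ball z (2 * t) ⊆ ball (0 : F) (R - 2 * S) := by
      intro y hy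
      rw [mem_ball_zero_iff] at hz ⊢
      rw [mem_ball, dist_eq_norm] at hy
      have : ‖y‖ ≤ ‖y - z‖ + ‖z‖ := by
        calc ‖y‖ = ‖(y - z) + z‖ := by congr 1; abel
          _ ≤ _ := norm_add_le _ _
      linarith
    have hsub2 : ball z (2 * t) ⊆ ball (0 : F) R :=
      hsub.trans (ball_subset_ball (by linarith))
    have h1 := landau_iterN (hw.of_le (by exact_mod_cast (show j + 2 ≤ J + 1 by omega))) (j := j) (x := z) htp
      (fun y hy => ih (by omega) y (hsub hy))
      (fun y hy => hA (j + 2) (by omega) y (hsub2 hy))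
    refine h1.trans (le_of_eq ?_)
    have hsq : rt ρ j = t * t := by
      rw [ht]
      change rt ρ j = Real.sqrt (rt ρ j) * Real.sqrt (rt ρ j)
      rw [Real.mul_self_sqrt (rt_pos hρ j).le]
    change 2 * (ct C j * rt ρ j * A) / t + A * t = (2 * ct C j + 1) * t * A
    rw [hsq]
    field_simp

/-- **interpolation.**  `w` has derivatives bounded by `A` and tested averages `≤ ρ^(d+K+1) A`
with respect to a measure of lower density at scale `ρ`; then all derivatives are small. -/
theorem interpN (F : Type*) [NormedAddCommGroup F] [InnerProductSpace ℝ F] [FiniteDimensional ℝ F]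
    [MeasurableSpace F] [BorelSpace F] (K J : ℕ) :
    ∃ C₀ : ℝ, 1 ≤ C₀ ∧ ∀ (G : Type) [NormedAddCommGroup G] [NormedSpace ℝ G] [CompleteSpace G]
      (d : ℕ) (μ : Measure F) (w : F → G) (r ε A ρ c : ℝ), ContDiff ℝ ((J + 1 : ℕ) : ℕ∞) w →
      0 < ε → ε ≤ 1 → 0 < ρ → ρ ≤ 1 → 0 < c → c ≤ 1 → 0 ≤ A →
      (∀ j ≤ J + 1, ∀ z ∈ ball (0 : F) (r + ε), ‖iteratedFDeriv ℝ j w z‖ ≤ A) →
      μ (ball 0 (r + ε)) < ⊤ →
      (∀ z ∈ ball (0 : F) (r + ε / 2), c * ρ ^ d ≤ μ.real (closedBall z (ρ / 2))) →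
      (∀ ζ : F → ℝ, ContDiff ℝ ∞ ζ → tsupport ζ ⊆ ball 0 (r + ε) →
        (∀ j ≤ K, ∀ z, ‖iteratedFDeriv ℝ j ζ z‖ ≤ 1) → ‖∫ z, ζ z • w z ∂μ‖ ≤ ρ ^ (d + K + 1) * A) →
      ∀ j ≤ J, ∀ z ∈ ball (0 : F) r, ‖iteratedFDeriv ℝ j w z‖ ≤ C₀ / (c * ε) * rt ρ J * A := by
  obtain ⟨Cη, hCη1, hCη⟩ := exists_bp_bound F K
  set B : ℝ := ct (1 + Cη) J with hB
  have hB0 : 0 ≤ B := ct_nonneg (by linarith) J
  refine ⟨B + (4 * J + 4), by have : (0:ℝ) ≤ J := Nat.cast_nonneg J; linarith, ?_⟩
  intro G _ _ _ d μ w r ε A ρ c hw hε hε1 hρ hρ1 hc hc1 hA0 hA hfin hlow htest j hj z hz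
  have hJ0 : (0 : ℝ) ≤ J := Nat.cast_nonneg J
  have hrt : 0 < rt ρ J := rt_pos hρ J
  by_cases hsmall : rt ρ J ≤ ε / (4 * J + 4)
  · -- the main case
    have hρε : ρ ≤ ε / 4 := by
      have h1 : ρ ≤ rt ρ J := rt_mono hρ hρ1 (Nat.zero_le J)
      refine h1.trans (hsmall.trans ?_)
      refine div_le_div_of_nonneg_left hε.le (by norm_num) (by linarith)
    have h0 : ∀ y ∈ ball (0 : F) (r + ε / 2), ‖w y‖ ≤ ((1 + Cη) / c) * ρ * A := by
      intro y hy
      rw [mem_ball_zero_iff] at hy
      have hcb : closedBall y ρ ⊆ ball (0 : F) (r + ε) := by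
        intro v hv
        rw [mem_closedBall, dist_eq_norm] at hv
        rw [mem_ball_zero_iff]
        have : ‖v‖ ≤ ‖v - y‖ + ‖y‖ := by
          calc ‖v‖ = ‖(v - y) + y‖ := by congr 1; abel
            _ ≤ _ := norm_add_le _ _
        linarith
      set q : ℝ := (Cη * (ρ⁻¹) ^ K)⁻¹ with hq
      have hCp : 0 < Cη * (ρ⁻¹) ^ K := by positivity
      have hq0 : 0 < q := inv_pos.2 hCp
      have hζ := htest (fun v => q * bs y ρ v) (contDiff_const.mul (contDiff_bs y ρ)) ?_ ?_
      · have e1 : ∫ v, (q * bs y ρ v) • w v ∂μ = q • ∫ v, bs y ρ v • w v ∂μ := by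
          rw [← integral_smul]
          refine integral_congr_ae (Eventually.of_forall fun v => ?_)
          simp only [mul_smul]
        rw [e1, norm_smul, Real.norm_of_nonneg hq0.le] at hζ
        have hT : ‖∫ v, bs y ρ v • w v ∂μ‖ ≤ Cη * ρ ^ (d + 1) * A := by
          have h2 : ‖∫ v, bs y ρ v • w v ∂μ‖ ≤ q⁻¹ * (ρ ^ (d + K + 1) * A) := by
            rw [← mul_le_mul_iff_right₀ hq0, mul_inv_cancel_left₀ hq0.ne']
            exact hζ
          refine h2.trans (le_of_eq ?_)
          rw [hq, inv_inv, inv_pow]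
          have : ρ ^ (d + K + 1) = ρ ^ (d + 1) * ρ ^ K := by ring
          rw [this]
          field_simp
        have h3 := norm_le_of_tested μ (w := w) (x := y) (L := A * ρ) (c := c * ρ ^ d) hρ
          hw.continuous ((measure_mono hcb).trans_lt hfin) ?_ (by positivity)
          (hlow y (by rwa [mem_ball_zero_iff])) hT
        · have h30 : Cη * ρ ^ (d + 1) * A / (c * ρ ^ d) = Cη * ρ * A / c := by
            rw [pow_succ]
            field_simp
          rw [h30] at h3
          have h4 : A * ρ ≤ ρ * A / c := by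
            rw [le_div_iff₀ hc]
            nlinarith [mul_nonneg hA0 hρ.le]
          have h5 : (1 + Cη) / c * ρ * A = ρ * A / c + Cη * ρ * A / c := by
            field_simp
          rw [h5]
          linarith
        · intro v hv
          have hv' : v ∈ ball (0 : F) (r + ε) := hcb (ball_subset_closedBall hv)
          have hy' : y ∈ ball (0 : F) (r + ε) := by rw [mem_ball_zero_iff]; linarith
          have h4 := (convex_ball (0 : F) (r + ε)).norm_image_sub_le_of_norm_fderiv_le (𝕜 := ℝ)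
            (f := w) (fun u _ => (hw.differentiable (by exact_mod_cast (show J + 1 ≠ 0 by omega))) u) (C := A) (fun u hu => by
              have := hA 1 (by omega) u hu
              rwa [norm_iteratedFDeriv_one] at this) hy' hv'
          refine h4.trans ?_
          rw [mem_ball, dist_eq_norm] at hv
          exact mul_le_mul_of_nonneg_left hv.le hA0
      · refine Subset.trans ?_ hcb
        refine Subset.trans (closure_mono ?_) (bs_tsupport (x := y) hρ)
        intro v hv
        rw [Function.mem_support] at hv ⊢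
        exact right_ne_zero_of_mul hv
      · intro i hi v
        have e2 : (fun v => q * bs y ρ v) = q • (fun v => bs y ρ v) := by
          funext v; simp
        rw [e2, iteratedFDeriv_const_smul_apply ((contDiff_bs y ρ).contDiffAt.of_le
          (by exact_mod_cast le_top)), norm_smul, Real.norm_of_nonneg hq0.le]
        have := norm_iteratedFDeriv_bs_le hCη hCη1 y hρ hρ1 hi v
        calc q * ‖iteratedFDeriv ℝ i (fun v => bs y ρ v) v‖ ≤ q * (Cη * (ρ⁻¹) ^ K) :=
              mul_le_mul_of_nonneg_left this hq0.le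
          _ = 1 := by rw [hq]; exact inv_mul_cancel₀ hCp.ne'
    have h1 := interp_auxN (J := J) hw hρ hA0 (R := r + ε / 2) (C := (1 + Cη) / c) (A := A)
      (fun i hi y hy => hA i hi y (ball_subset_ball (by linarith) hy)) h0 j hj z ?_
    · refine h1.trans ?_
      have hcc : ct ((1 + Cη) / c) j ≤ ct (1 + Cη) J / c := by
        have h2 : ∀ i : ℕ, ct ((1 + Cη) / c) i ≤ ct (1 + Cη) i / c := by
          intro i
          induction i with
          | zero => exact le_rfl
          | succ i ih =>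
            change 2 * ct ((1 + Cη) / c) i + 1 ≤ (2 * ct (1 + Cη) i + 1) / c
            rw [le_div_iff₀ hc] at ih ⊢
            nlinarith
        refine (h2 j).trans ?_
        gcongr
        exact ct_mono (by linarith) hj
      have hrj : rt ρ j ≤ rt ρ J := rt_mono hρ hρ1 hj
      have h3 : ct ((1 + Cη) / c) j * rt ρ j * A ≤ (B / c) * rt ρ J * A := by
        have h0' : 0 ≤ ct ((1 + Cη) / c) j := ct_nonneg (by positivity) j
        have h4 := (rt_pos hρ j).le
        gcongr
      refine h3.trans ?_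
      have h5 : B / c ≤ (B + (4 * J + 4)) / (c * ε) := by
        rw [div_le_div_iff₀ hc (by positivity)]
        have : B * (c * ε) ≤ B * c := by
          have := mul_le_mul_of_nonneg_left hε1 (mul_nonneg hB0 hc.le)
          nlinarith
        nlinarith [mul_nonneg (by linarith : (0:ℝ) ≤ 4 * J + 4) hc.le]
      gcongr
    · have h6 : ∑ i ∈ Finset.range j, rt ρ (i + 1) ≤ J * (ε / (4 * J + 4)) := by
        calc ∑ i ∈ Finset.range j, rt ρ (i + 1) ≤ ∑ _i ∈ Finset.range j, rt ρ J := by
              refine Finset.sum_le_sum fun i hi => ?_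
              have := Finset.mem_range.1 hi
              exact rt_mono hρ hρ1 (by omega)
          _ = j * rt ρ J := by simp
          _ ≤ J * (ε / (4 * J + 4)) := by gcongr
      have h7 : (J : ℝ) * (ε / (4 * J + 4)) ≤ ε / 4 := by
        rw [mul_div_assoc', div_le_div_iff₀ (by linarith) (by norm_num)]
        nlinarith
      exact ball_subset_ball (by linarith) hz
  · -- trivial case
    rw [not_le] at hsmall
    refine (hA j (by omega) z (ball_subset_ball (by linarith) hz)).trans ?_
    have h1 : 1 ≤ (B + (4 * J + 4)) / (c * ε) * rt ρ J := by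
      rw [div_lt_iff₀ (by linarith)] at hsmall
      rw [div_mul_eq_mul_div, le_div_iff₀ (by positivity), one_mul]
      have : c * ε ≤ ε := mul_le_of_le_one_left hε.le hc1
      nlinarith [mul_nonneg hB0 hrt.le]
    nlinarith


end Crest.Agent.R234.Sw_733
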