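import Crest.Agent.R234.Cy7_870

/-!
# Row 234, VF-WELLINST, part 1 (helper870)

(W3) and the vertical identity for general (signed) `C²` functions of the height.
First variation terms are kept (stationarity is not used).
-/

set_option autoImplicit false

open MeasureTheory Set Function Filter Topology
open Crest.GeometryTopology.Submanifold
open Crest.Agent.R234.Vf_884 Crest.Agent.R234.Ar_870 Crest.Agent.R234.Cy_870
open scoped ENNReal NNReal InnerProductSpace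

noncomputable section

namespace Crest.Agent.R234.Wi_870

variable {m n k : ℕ}

/-- `C²` functions of the height: gradient `dF`, Hessian `H` -/
structure C2w (F : Euc n → ℝ) (dF : Euc n → Euc n) (H : Euc n → L n) : Prop where
  hasF : ∀ y, HasFDerivAt F (innerSL ℝ (dF y)) y
  hasdF : ∀ y, HasFDerivAt dF (H y) y
  contH : Continuous H

namespace C2w

variable {F : Euc n → ℝ} {dF : Euc n → Euc n} {H : Euc n → L n}

theorem contF (h : C2w F dF H) : Continuous F :=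
  continuous_iff_continuousAt.2 fun y => (h.hasF y).continuousAt

theorem contdF (h : C2w F dF H) : Continuous dF :=
  continuous_iff_continuousAt.2 fun y => (h.hasdF y).continuousAt

end C2w

theorem _root_.Crest.Agent.R234.Cy_870.Well.c2w {F : Euc n → ℝ} {dF : Euc n → Euc n}
    {H : Euc n → L n} (h : Well F dF H) : C2w F dF H := ⟨h.hasF, h.hasdF, h.contH⟩

variable {π : Euc k →L[ℝ] Euc m} {κ : Euc k →L[ℝ] Euc n} {x : Euc m} {L₀ h₀ : ℝ}
  {V : Measure (Euc k × L k)} {g g1 g2 : ℝ → ℝ}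
  {F : Euc n → ℝ} {dF : Euc n → Euc n} {H : Euc n → L n}

theorem aesm_F (hF : C2w F dF H) (κ : Euc k →L[ℝ] Euc n) (V : Measure (Euc k × L k)) :
    AEStronglyMeasurable (fun p : Euc k × L k => F (κ p.1)) V :=
  (hF.contF.comp (κ.continuous.comp continuous_fst)).aestronglyMeasurable

theorem continuous_cM (hF : C2w F dF H) (π : Euc k →L[ℝ] Euc m) (κ : Euc k →L[ℝ] Euc n)
    (x : Euc m) : Continuous (cM π κ x dF) := by
  unfold cM
  refine (hF.contdF.comp (κ.continuous.comp continuous_fst)).inner ?_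
  exact ((continuous_Svh π κ).comp continuous_snd).clm_apply
    ((π.continuous.comp continuous_fst).sub continuous_const)

theorem cM_bd (h : Fr V π κ x L₀) (hh : Hgt V π κ x L₀ h₀) (hF : C2w F dF H) :
    ∃ C : ℝ, ∀ᵐ p ∂V, ‖π p.1 - x‖ ^ 2 < Real.exp (2 * L₀) → |cM π κ x dF p| ≤ C :=
  exists_bd h hh (c := fun q => ⟪dF q.1, Svh π κ q.2.1 (q.2.2 - x)⟫_ℝ)
    ((hF.contdF.comp continuous_fst).inner
      (((continuous_Svh π κ).comp (continuous_fst.comp continuous_snd)).clm_apply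
        ((continuous_snd.comp continuous_snd).sub continuous_const)))

theorem F_bd (h : Fr V π κ x L₀) (hh : Hgt V π κ x L₀ h₀) (hF : C2w F dF H) :
    ∃ C : ℝ, ∀ᵐ p ∂V, ‖π p.1 - x‖ ^ 2 < Real.exp (2 * L₀) → |F (κ p.1)| ≤ C :=
  exists_bd h hh (c := fun q => F q.1) (hF.contF.comp continuous_fst)

theorem trH_cont (hF : C2w F dF H) (κ : Euc k →L[ℝ] Euc n) :
    Continuous fun p : Euc k × L k => tr (H (κ p.1) ∘L Shh κ p.2) :=
  tr.continuous.comp ((hF.contH.comp (κ.continuous.comp continuous_fst)).clm_comp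
    ((continuous_Shh κ).comp continuous_snd))

theorem trH_bd (h : Fr V π κ x L₀) (hh : Hgt V π κ x L₀ h₀) (hF : C2w F dF H) :
    ∃ C : ℝ, ∀ᵐ p ∂V, ‖π p.1 - x‖ ^ 2 < Real.exp (2 * L₀) →
      |tr (H (κ p.1) ∘L Shh κ p.2)| ≤ C :=
  exists_bd h hh (c := fun q => tr (H q.1 ∘L Shh κ q.2.1))
    (tr.continuous.comp ((hF.contH.comp continuous_fst).clm_comp
      ((continuous_Shh κ).comp (continuous_fst.comp continuous_snd))))

theorem FV_X2 (h : Fr V π κ x L₀) (hh : Hgt V π κ x L₀ h₀) (hF : C2w F dF H) (hg : Ker g g1)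
    {l : ℝ} (hl : l ≤ L₀) :
    FV V (X2 π κ x dF g l) =
      (∫ p, tr (H (κ p.1) ∘L Shh κ p.2) * g (Real.exp (-2 * l) * ‖π p.1 - x‖ ^ 2) ∂V)
        + 2 * Real.exp (-2 * l) * MM V π κ x dF g1 l := by
  obtain ⟨C1, hC1⟩ := trH_bd h hh hF
  obtain ⟨C2, hC2⟩ := cM_bd h hh hF
  have i1 := h.integrable_c (trH_cont hF κ).aestronglyMeasurable hC1 hg hl
  have i2 := integrable_k' h (continuous_cM hF π κ x).aestronglyMeasurable hC2 hg hl
  unfold MM
  rw [← integral_const_mul, ← integral_add i1 (i2.const_mul _)]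
  unfold FV
  refine integral_congr_ae ?_
  filter_upwards [h.conc] with p hp
  have h1 := tr_field (m := n) (n := m) κ π
    (F := fun v : Euc m => g (Real.exp (-2 * l) * ‖v - x‖ ^ 2)) (ξ := dF) p.1 p.2
    (hasFDerivAt_rad hg.der l x (π p.1)).differentiableAt (hF.hasdF _).differentiableAt
  have h2 : tr (fderiv ℝ (X2 π κ x dF g l) p.1 ∘L p.2) = _ := h1
  rw [h2, (hasFDerivAt_rad hg.der l x (π p.1)).fderiv, (hF.hasdF _).fderiv, innerSL_apply_apply,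
    inner_smul_left, inner_swap (isPr_of_G hp)]
  unfold cM
  simp only [RCLike.conj_to_real]
  ring

theorem FV_X3 (h : Fr V π κ x L₀) (hh : Hgt V π κ x L₀ h₀) (hF : C2w F dF H) (hg : Ker g1 g2)
    {l : ℝ} (hl : l ≤ L₀) :
    FV V (X3 π κ x F g1 l) =
      (m * (∫ p, F (κ p.1) * g1 (Real.exp (-2 * l) * ‖π p.1 - x‖ ^ 2) ∂V)
        + 2 * (∫ p, F (κ p.1) * (Real.exp (-2 * l) * ‖π p.1 - x‖ ^ 2 *
            g2 (Real.exp (-2 * l) * ‖π p.1 - x‖ ^ 2)) ∂V)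
        - (∫ p, (F (κ p.1) * tl π p.2) * g1 (Real.exp (-2 * l) * ‖π p.1 - x‖ ^ 2) ∂V)
        - 2 * Real.exp (-2 * l) * (∫ p, (F (κ p.1) * qf π p.2 (π p.1 - x)) *
            g2 (Real.exp (-2 * l) * ‖π p.1 - x‖ ^ 2) ∂V))
        + MM V π κ x dF g1 l := by
  obtain ⟨C1, hC1⟩ := F_bd h hh hF
  obtain ⟨C2, hC2⟩ := cM_bd h hh hF
  have hFt : AEStronglyMeasurable (fun p : Euc k × L k => F (κ p.1) * tl π p.2) V :=
    (aesm_F hF κ V).mul (aestronglyMeasurable_tl π V)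
  have hFq : AEStronglyMeasurable (fun p : Euc k × L k => F (κ p.1) * qf π p.2 (π p.1 - x)) V :=
    (aesm_F hF κ V).mul (continuous_qf π x).aestronglyMeasurable
  have hbt : ∀ᵐ p ∂V, ‖π p.1 - x‖ ^ 2 < Real.exp (2 * L₀) →
      |F (κ p.1) * tl π p.2| ≤ C1 * m := by
    filter_upwards [hC1, h.tl_bound] with p h1 h2 hlt
    rw [abs_mul]
    exact mul_le_mul (h1 hlt) (h2 hlt) (abs_nonneg _) ((abs_nonneg _).trans (h1 hlt))
  have hbq : ∀ᵐ p ∂V, ‖π p.1 - x‖ ^ 2 < Real.exp (2 * L₀) →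
      |F (κ p.1) * qf π p.2 (π p.1 - x)| ≤ C1 * Real.exp (2 * L₀) := by
    filter_upwards [hC1, h.qf_bound] with p h1 h2 hlt
    rw [abs_mul]
    exact mul_le_mul (h1 hlt) (h2 hlt) (abs_nonneg _) ((abs_nonneg _).trans (h1 hlt))
  have i1 := h.integrable_c (aesm_F hF κ V) hC1 hg hl
  have i2 := integrable_tk h (aesm_F hF κ V) hC1 hg hl
  have i3 := h.integrable_c hFt hbt hg hl
  have i4 := integrable_k' h hFq hbq hg hl
  have i5 := h.integrable_c (continuous_cM hF π κ x).aestronglyMeasurable hC2 hg hl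
  have h0 := int4 i1 i2 i3 i4 (m:ℝ) 2 (-1) (-(2 * Real.exp (-2 * l)))
  have e1 : (m * (∫ p, F (κ p.1) * g1 (Real.exp (-2 * l) * ‖π p.1 - x‖ ^ 2) ∂V)
        + 2 * (∫ p, F (κ p.1) * (Real.exp (-2 * l) * ‖π p.1 - x‖ ^ 2 *
            g2 (Real.exp (-2 * l) * ‖π p.1 - x‖ ^ 2)) ∂V)
        - (∫ p, (F (κ p.1) * tl π p.2) * g1 (Real.exp (-2 * l) * ‖π p.1 - x‖ ^ 2) ∂V)
        - 2 * Real.exp (-2 * l) * (∫ p, (F (κ p.1) * qf π p.2 (π p.1 - x)) *
            g2 (Real.exp (-2 * l) * ‖π p.1 - x‖ ^ 2) ∂V)) =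
      (m * (∫ p, F (κ p.1) * g1 (Real.exp (-2 * l) * ‖π p.1 - x‖ ^ 2) ∂V)
        + 2 * (∫ p, F (κ p.1) * (Real.exp (-2 * l) * ‖π p.1 - x‖ ^ 2 *
            g2 (Real.exp (-2 * l) * ‖π p.1 - x‖ ^ 2)) ∂V)
        + -1 * (∫ p, (F (κ p.1) * tl π p.2) * g1 (Real.exp (-2 * l) * ‖π p.1 - x‖ ^ 2) ∂V)
        + -(2 * Real.exp (-2 * l)) * (∫ p, (F (κ p.1) * qf π p.2 (π p.1 - x)) *
            g2 (Real.exp (-2 * l) * ‖π p.1 - x‖ ^ 2) ∂V)) := by ring
  rw [e1, ← h0]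
  unfold MM
  have i6 : Integrable (fun p : Euc k × L k =>
      (m:ℝ) * (F (κ p.1) * g1 (Real.exp (-2 * l) * ‖π p.1 - x‖ ^ 2)) +
      2 * (F (κ p.1) * (Real.exp (-2 * l) * ‖π p.1 - x‖ ^ 2 *
        g2 (Real.exp (-2 * l) * ‖π p.1 - x‖ ^ 2))) +
      -1 * (F (κ p.1) * tl π p.2 * g1 (Real.exp (-2 * l) * ‖π p.1 - x‖ ^ 2)) +
      -(2 * Real.exp (-2 * l)) * (F (κ p.1) * qf π p.2 (π p.1 - x) *
        g2 (Real.exp (-2 * l) * ‖π p.1 - x‖ ^ 2))) V :=
    (((i1.const_mul _).add (i2.const_mul _)).add (i3.const_mul _)).add (i4.const_mul _)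
  rw [← integral_add i6 i5]
  unfold FV
  refine integral_congr_ae ?_
  filter_upwards [h.conc] with p hp
  have h1 := tr_field π κ (F := F)
    (ξ := fun v : Euc m => g1 (Real.exp (-2 * l) * ‖v - x‖ ^ 2) • (v - x)) p.1 p.2
    (hF.hasF _).differentiableAt
    ((contDiff_rad hg.der hg.cont l x).differentiable one_ne_zero _)
  have h2 : tr (fderiv ℝ (X3 π κ x F g1 l) p.1 ∘L p.2) = _ := h1
  rw [h2, tr_rad hg.der hg.cont, (hF.hasF _).fderiv, innerSL_apply_apply]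
  have h3 : ⟪dF (κ p.1), κ (p.2 (ContinuousLinearMap.adjoint π
      (g1 (Real.exp (-2 * l) * ‖π p.1 - x‖ ^ 2) • (π p.1 - x))))⟫_ℝ =
      cM π κ x dF p * g1 (Real.exp (-2 * l) * ‖π p.1 - x‖ ^ 2) := by
    rw [map_smul, map_smul, map_smul, inner_smul_right, mul_comm]
    rfl
  rw [h3, tl_eq]
  unfold qf
  ring

/-- the vertical identity `e_F = s^{2-m} (δV(χ dF) - 2 s^{-2} ∫ g' ⟨dF, S_vh v⟩ dV)` -/
theorem eF_eq (h : Fr V π κ x L₀) (hh : Hgt V π κ x L₀ h₀) (hF : C2w F dF H) (hg : Ker g g1)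
    {l : ℝ} (hl : l ≤ L₀) :
    eF V π κ x H g l - Real.exp ((2 - m) * l) * FV V (X2 π κ x dF g l) =
      -(2 * Real.exp (-m * l) * MM V π κ x dF g1 l) := by
  rw [FV_X2 h hh hF hg hl]
  unfold eF
  have h6 : Real.exp (-m * l) = Real.exp ((2 - m) * l) * Real.exp (-2 * l) := by
    rw [← Real.exp_add]; congr 1; ring
  rw [h6]
  ring

/-- **(W3)**: `dI_F/dl = 2 e_F + 2 s^{2-m} ∫ F (1 - S_hh) : D²χ + 2 s^{2-m} (δV(F ∇χ) - δV(χ dF))` -/
theorem hasDerivAt_IF (h : Fr V π κ x L₀) (hh : Hgt V π κ x L₀ h₀) (hF : C2w F dF H)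
    (hg : Prof g g1 g2) {l : ℝ} (hl : l < L₀) :
    HasDerivAt (IF V π κ x F g1)
      (2 * eF V π κ x H g l + err3 V π κ x F g1 g2 l +
        (4 * Real.exp (-m * l) * FV V (X3 π κ x F g1 l) -
          2 * (Real.exp ((2 - m) * l) * FV V (X2 π κ x dF g l)))) l := by
  obtain ⟨C1, hC1⟩ := F_bd h hh hF
  have h1 := h.deriv_c (aesm_F hF κ V) hC1 hg.k1 hl
  have h3 : HasDerivAt (fun l : ℝ => Real.exp (-m * l)) (Real.exp (-m * l) * (-m)) l := by
    have h4 : HasDerivAt (fun l : ℝ => (-m : ℝ) * l) (-m) l := by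
      simpa using (hasDerivAt_id l).const_mul (-m : ℝ)
    exact h4.exp
  have h5 := h3.mul (h1.const_mul (-4))
  have hfun : IF V π κ x F g1 = (fun l : ℝ => Real.exp (-m * l)) * (fun l =>
      -4 * ∫ p, F (κ p.1) * g1 (Real.exp (-2 * l) * ‖π p.1 - x‖ ^ 2) ∂V) := by
    funext l
    unfold IF
    simp only [Pi.mul_apply]
    rw [int_c4 V (fun p => F (κ p.1)) (fun p => g1 (Real.exp (-2 * l) * ‖π p.1 - x‖ ^ 2)) (-4)]
  rw [hfun]
  refine h5.congr_deriv ?_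
  have e2 := eF_eq h hh hF hg.k0 hl.le
  have e3 := FV_X3 h hh hF hg.k1 hl.le
  have h7 : ∫ p, F (κ p.1) * (-2 * (Real.exp (-2 * l) * ‖π p.1 - x‖ ^ 2 *
      g2 (Real.exp (-2 * l) * ‖π p.1 - x‖ ^ 2))) ∂V =
      -2 * ∫ p, F (κ p.1) * (Real.exp (-2 * l) * ‖π p.1 - x‖ ^ 2 *
      g2 (Real.exp (-2 * l) * ‖π p.1 - x‖ ^ 2)) ∂V := by
    rw [← integral_const_mul]
    refine integral_congr_ae (Eventually.of_forall fun p => ?_)
    simp only
    ring
  rw [h7]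
  have e4 : eF V π κ x H g l = Real.exp ((2 - m) * l) * FV V (X2 π κ x dF g l)
      - 2 * Real.exp (-m * l) * MM V π κ x dF g1 l := by linarith
  rw [e4, e3]
  unfold err3
  ring


end Crest.Agent.R234.Wi_870
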